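import Crest.Agent.N207.X.Jet

/-! Row 207, block B (end).  (JS): joint smoothness on `[a, b] × U` from jointly continuous
spatial jets and an evolution equation. -/

set_option autoImplicit false
set_option linter.unusedSectionVars false
open Set Filter Topology MeasureTheory
open scoped ContDiff Interval

noncomputable section
namespace Crest.Agent.N207.X

variable {E : Type*} [NormedAddCommGroup E] [NormedSpace ℝ E]
variable {V : Type*} [NormedAddCommGroup V] [NormedSpace ℝ V]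

/-- `∂ₜ u = Φ` on `I × U` (one-sided at the end points) -/
def Ev (I : Set ℝ) (U : Set E) (u Φ : ℝ → E → V) : Prop :=
  ∀ t ∈ I, ∀ y ∈ U, HasDerivWithinAt (fun s => u s y) (Φ t y) I t

variable {a b : ℝ} {U : Set E} {I : Set ℝ}

theorem cont_slice {X : Type*} [TopologicalSpace X] {w : ℝ → E → X}
    (h : ContinuousOn (fun p : ℝ × E => w p.1 p.2) (I ×ˢ U)) {y : E} (hy : y ∈ U) :
    ContinuousOn (fun s => w s y) I :=
  h.comp (f := fun s : ℝ => (s, y)) (by fun_prop) fun _ hs => ⟨hs, hy⟩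

theorem cont_slice' {X : Type*} [TopologicalSpace X] {w : ℝ → E → X}
    (h : ContinuousOn (fun p : ℝ × E => w p.1 p.2) (I ×ˢ U)) {t : ℝ} (ht : t ∈ I) :
    ContinuousOn (w t) U :=
  h.comp (f := fun z : E => (t, z)) (by fun_prop) fun _ hz => ⟨ht, hz⟩

section Int
variable [CompleteSpace V]

theorem hasDerivWithinAt_of_int {f g : ℝ → V} (hg : ContinuousOn g (Icc a b))
    (h : ∀ t ∈ Icc a b, f t = f a + ∫ s in a..t, g s) {t : ℝ} (ht : t ∈ Icc a b) :
    HasDerivWithinAt f (g t) (Icc a b) t := by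
  have hab : a ≤ b := ht.1.trans ht.2
  have hc : Continuous (IccExtend hab (fun s : Icc a b => g s)) :=
    (continuousOn_iff_continuous_restrict.1 hg).Icc_extend'
  have h1 := (hc.integral_hasStrictDerivAt a t).hasDerivAt
  rw [IccExtend_of_mem hab _ ht] at h1
  refine ((h1.const_add (f a)).hasDerivWithinAt (s := Icc a b)).congr (fun s hs => ?_) ?_
  · rw [h s hs]
    congr 1
    refine intervalIntegral.integral_congr fun r hr => ?_
    rw [uIcc_of_le hs.1] at hr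
    rw [IccExtend_of_mem hab _ ⟨hr.1, hr.2.trans hs.2⟩]
  · rw [h t ht]
    congr 1
    refine intervalIntegral.integral_congr fun r hr => ?_
    rw [uIcc_of_le ht.1] at hr
    rw [IccExtend_of_mem hab _ ⟨hr.1, hr.2.trans ht.2⟩]

theorem int_of_off_countable {f g : ℝ → V} (hf : ContinuousOn f (Icc a b))
    (hg : ContinuousOn g (Icc a b)) {s : Set ℝ} (hs : s.Countable)
    (h : ∀ t ∈ Ioo a b \ s, HasDerivAt f (g t) t) {t : ℝ} (ht : t ∈ Icc a b) :
    f t = f a + ∫ s in a..t, g s := by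
  have hsub : Icc a t ⊆ Icc a b := Icc_subset_Icc_right ht.2
  rw [integral_eq_of_hasDerivAt_off_countable_of_le f g ht.1 hs (hf.mono hsub)
    (fun x hx => h x ⟨⟨hx.1.1, hx.1.2.trans_le ht.2⟩, hx.2⟩)
    ((hg.mono hsub).intervalIntegrable_of_Icc ht.1)]
  abel

/-- an evolution equation off a countable set of times holds at all times -/
theorem Ev.of_off_countable {u Φ : ℝ → E → V}
    (hu : ContinuousOn (fun p : ℝ × E => u p.1 p.2) (Icc a b ×ˢ U))
    (hΦ : ContinuousOn (fun p : ℝ × E => Φ p.1 p.2) (Icc a b ×ˢ U)) {s : Set ℝ}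
    (hs : s.Countable) (h : ∀ t ∈ Ioo a b \ s, ∀ y ∈ U, HasDerivAt (fun r => u r y) (Φ t y) t) :
    Ev (Icc a b) U u Φ := fun _ ht y hy =>
  hasDerivWithinAt_of_int (f := fun r => u r y) (g := fun r => Φ r y) (cont_slice hΦ hy)
    (fun _ hr => int_of_off_countable (cont_slice hu hy) (cont_slice hΦ hy) hs
      (fun t ht => h t ht y hy) hr) ht

theorem Ev.int {u Φ : ℝ → E → V} (h : Ev (Icc a b) U u Φ)
    (hΦ : ContinuousOn (fun p : ℝ × E => Φ p.1 p.2) (Icc a b ×ˢ U)) {t : ℝ} (ht : t ∈ Icc a b)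
    {y : E} (hy : y ∈ U) : u t y = u a y + ∫ s in a..t, Φ s y :=
  int_of_off_countable (f := fun r => u r y) (g := fun r => Φ r y)
    (fun r hr => (h r hr y hy).continuousWithinAt) (cont_slice hΦ hy) countable_empty
    (fun r hr => (h r (Ioo_subset_Icc_self hr.1) y hy).hasDerivAt (Icc_mem_nhds hr.1.1 hr.1.2)) ht

/-- `∂ₜ` commutes with `∂ᵥ` -/
theorem Ev.dv [FiniteDimensional ℝ E] (hab : a < b) (hU : IsOpen U) {u Φ : ℝ → E → V}
    (h : Ev (Icc a b) U u Φ) (hu : ∀ t ∈ Icc a b, ∀ y ∈ U, DifferentiableAt ℝ (u t) y)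
    (hΦ : SJ 0 (Icc a b) U Φ) (v : E) : Ev (Icc a b) U (dv v u) (dv v Φ) := by
  have := FiniteDimensional.proper_real E
  intro t ht y hy
  refine hasDerivWithinAt_of_int (f := fun r => X.dv v u r y) (g := fun r => X.dv v Φ r y)
    (cont_slice (hΦ.dv v).cont hy) (fun r hr => ?_) ht
  have hD := (hΦ.fderiv (uniqueDiffOn_Icc hab) hU).cont
  obtain ⟨ε, hε, hb⟩ := Metric.nhds_basis_closedBall.mem_iff.1 (hU.mem_nhds hy)
  obtain ⟨C, hC⟩ := (isCompact_Icc.prod (isCompact_closedBall y ε)).exists_bound_of_continuousOn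
    (hD.mono (prod_mono (Subset.refl (Icc a b)) hb))
  have hsub : Ι a r ⊆ Icc a b := by
    rw [uIoc_of_le hr.1]
    exact fun s hs => ⟨hs.1.le, hs.2.trans hr.2⟩
  have hsub' : Icc a r ⊆ Icc a b := Icc_subset_Icc_right hr.2
  have h1 := intervalIntegral.hasFDerivAt_integral_of_dominated_of_fderiv_le (𝕜 := ℝ)
    (μ := volume) (a := a) (b := r) (F := fun z s => Φ s z)
    (F' := fun z s => fderiv ℝ (Φ s) z) (bound := fun _ => C)
    (Metric.closedBall_mem_nhds y hε)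
    (by
      filter_upwards [hU.mem_nhds hy] with z hz
      exact ((cont_slice hΦ.cont hz).mono hsub).aestronglyMeasurable measurableSet_uIoc)
    (((cont_slice hΦ.cont hy).mono hsub').intervalIntegrable_of_Icc hr.1)
    (((cont_slice hD hy).mono hsub).aestronglyMeasurable measurableSet_uIoc)
    (Eventually.of_forall fun s hs z hz => hC (s, z) ⟨hsub hs, hz⟩)
    intervalIntegrable_const
    (Eventually.of_forall fun s hs z hz => (hΦ.df (hsub hs) (hb hz)).hasFDerivAt)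
  have h2 := (hu a ⟨le_rfl, hab.le⟩ y hy).hasFDerivAt.add h1
  have h3 : u r =ᶠ[𝓝 y] fun z => u a z + ∫ s in a..r, Φ s z := by
    filter_upwards [hU.mem_nhds hy] with z hz
    exact h.int hΦ.cont hr hz
  have h4 := (h2.congr_of_eventuallyEq h3).fderiv
  simp only [X.dv]
  rw [h4, ContinuousLinearMap.add_apply, ContinuousLinearMap.intervalIntegral_apply
    (((cont_slice hD hy).mono hsub').intervalIntegrable_of_Icc hr.1)]

theorem Ev.dl [FiniteDimensional ℝ E] (hab : a < b) (hU : IsOpen U) {u Φ : ℝ → E → V}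
    (h : Ev (Icc a b) U u Φ)
    (hu : ∀ l, ∀ t ∈ Icc a b, ∀ y ∈ U, DifferentiableAt ℝ (dl l u t) y)
    (hΦ : SJ 0 (Icc a b) U Φ) (l : List E) : Ev (Icc a b) U (dl l u) (dl l Φ) := by
  induction l generalizing u Φ with
  | nil => exact h
  | cons v l ih => exact ih (h.dv hab hU (hu []) hΦ v) (fun l => hu (v :: l)) (hΦ.dv v)

end Int

/-- continuous time derivative + spatial derivative give the joint derivative -/
theorem hasFDerivWithinAt_of_partial (hI : Convex ℝ I) {u Φ : ℝ → E → V}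
    (h : Ev I U u Φ) (hΦ : ContinuousOn (fun p : ℝ × E => Φ p.1 p.2) (I ×ˢ U))
    {t : ℝ} (ht : t ∈ I) {y : E} (hy : y ∈ U) {L : E →L[ℝ] V} (hL : HasFDerivAt (u t) L y) :
    HasFDerivWithinAt (fun p : ℝ × E => u p.1 p.2)
      ((ContinuousLinearMap.fst ℝ ℝ E).smulRight (Φ t y) +
        L.comp (ContinuousLinearMap.snd ℝ ℝ E)) (I ×ˢ U) (t, y) := by
  have h2 : HasFDerivWithinAt (fun p : ℝ × E => u t p.2)
      (L.comp (ContinuousLinearMap.snd ℝ ℝ E)) (I ×ˢ U) (t, y) :=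
    (hL.comp (t, y) (ContinuousLinearMap.snd ℝ ℝ E).hasFDerivAt).hasFDerivWithinAt
  have h1 : HasFDerivWithinAt (fun p : ℝ × E => u p.1 p.2 - u t p.2)
      ((ContinuousLinearMap.fst ℝ ℝ E).smulRight (Φ t y)) (I ×ˢ U) (t, y) := by
    rw [hasFDerivWithinAt_iff_isLittleO, Asymptotics.isLittleO_iff]
    intro c hc
    have h3 := hΦ (t, y) ⟨ht, hy⟩
    rw [ContinuousWithinAt, Metric.tendsto_nhdsWithin_nhds] at h3
    obtain ⟨δ, hδ, h3⟩ := h3 c hc
    filter_upwards [self_mem_nhdsWithin,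
      mem_nhdsWithin_of_mem_nhds (Metric.ball_mem_nhds (t, y) hδ)] with p hp hpδ
    have hp1 : dist p.1 t < δ := (le_max_left _ _).trans_lt hpδ
    have hp2 : dist p.2 y < δ := (le_max_right _ _).trans_lt hpδ
    have h4 := (hI.inter (convex_ball t δ)).norm_image_sub_le_of_norm_hasDerivWithin_le
      (f := fun s => u s p.2 - s • Φ t y) (f' := fun s => Φ s p.2 - Φ t y) (C := c)
      (fun s hs => by
        have h6 := ((h s hs.1 p.2 hp.2).fun_sub
          ((hasDerivWithinAt_id s I).smul_const (Φ t y))).mono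
          (inter_subset_left (t := Metric.ball t δ))
        simpa using h6)
      (fun s hs => by
        have := h3 (x := (s, p.2)) ⟨hs.1, hp.2⟩ (max_lt hs.2 hp2)
        rw [dist_eq_norm] at this
        exact this.le)
      (x := t) (y := p.1) ⟨ht, Metric.mem_ball_self hδ⟩ ⟨hp.1, hp1⟩
    have h5 : ‖p.1 - t‖ ≤ ‖p - (t, y)‖ := norm_fst_le (p - (t, y))
    refine le_trans (le_of_eq ?_) (h4.trans (mul_le_mul_of_nonneg_left h5 hc.le))
    congr 1
    simp [sub_smul]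
    abel
  simpa using h1.fun_add h2

variable [CompleteSpace V] [FiniteDimensional ℝ E]

/-- one more joint derivative -/
theorem SJ.succ (hab : a < b) (hU : IsOpen U) {u Φ : ℝ → E → V} {n : ℕ}
    (h : Ev (Icc a b) U u Φ) (hu : SJ n (Icc a b) U u) (hΦ : SJ n (Icc a b) U Φ) :
    SJ (n + 1) (Icc a b) U u := by
  intro l
  refine ⟨?_, (hu l).df⟩
  have hI := uniqueDiffOn_Icc hab
  have h1 := h.dl hab hU (fun l => (hu l).df) (hΦ.of_le (Nat.zero_le _)) l
  have e : ((n + 1 : ℕ) : WithTop ℕ∞) = (n : WithTop ℕ∞) + 1 := by push_cast; rfl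
  rw [e, contDiffOn_succ_iff_hasFDerivWithinAt_of_uniqueDiffOn (hI.prod hU.uniqueDiffOn)]
  refine ⟨by simp, fun p => (ContinuousLinearMap.fst ℝ ℝ E).smulRight (X.dl l Φ p.1 p.2) +
    (_root_.fderiv ℝ (X.dl l u p.1) p.2).comp (ContinuousLinearMap.snd ℝ ℝ E), ?_, fun p hp => ?_⟩
  · refine ContDiffOn.add ?_ (ContDiffOn.clm_comp ((hu.dl l).fderiv hI hU).cd contDiffOn_const)
    exact (ContinuousLinearMap.smulRightL ℝ (ℝ × E) V
      (ContinuousLinearMap.fst ℝ ℝ E)).contDiff.comp_contDiffOn (hΦ.dl l).cd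
  · exact hasFDerivWithinAt_of_partial (convex_Icc a b) h1 (hΦ.dl l).cont hp.1 hp.2
      ((hu.dl l).df hp.1 hp.2).hasFDerivAt

/-- **(JS), abstract form**: the right-hand side is as regular as the solution -/
theorem js_of_closure (hab : a < b) (hU : IsOpen U) {u Φ : ℝ → E → V}
    (hu : SJ 0 (Icc a b) U u) (hΦ : ∀ n, SJ n (Icc a b) U u → SJ n (Icc a b) U Φ)
    {s : Set ℝ} (hs : s.Countable)
    (h : ∀ t ∈ Ioo a b \ s, ∀ y ∈ U, HasDerivAt (fun r => u r y) (Φ t y) t) :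
    ContDiffOn ℝ ∞ (fun p : ℝ × E => u p.1 p.2) (Icc a b ×ˢ U) ∧ Ev (Icc a b) U u Φ := by
  have hE := Ev.of_off_countable hu.cont (hΦ 0 hu).cont hs h
  refine ⟨contDiffOn_infty.2 fun n => SJ.cd ?_, hE⟩
  induction n with
  | zero => exact hu
  | succ n ih => exact ih.succ hab hU hE (hΦ n ih)

/-- **(JS)**: `∂ₜ u = F (t, y, u, Du, D²u)` off a countable set of times and jointly continuous
spatial jets give joint smoothness up to the end points, and the equation at all times -/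
theorem js (hab : a < b) (hU : IsOpen U) {u : ℝ → E → V}
    (h1 : ∀ t ∈ Icc a b, ContDiffOn ℝ ∞ (u t) U)
    (h2 : ∀ k, ContinuousOn (fun p : ℝ × E => iteratedFDeriv ℝ k (u p.1) p.2) (Icc a b ×ˢ U))
    {O : Set (E × V × (E →L[ℝ] V) × (E →L[ℝ] E →L[ℝ] V))} (hO : IsOpen O)
    {F : ℝ × E × V × (E →L[ℝ] V) × (E →L[ℝ] E →L[ℝ] V) → V}
    (hF : ContDiffOn ℝ ∞ F (Icc a b ×ˢ O))
    (hm : ∀ t ∈ Icc a b, ∀ y ∈ U,
      (y, u t y, fderiv ℝ (u t) y, fderiv ℝ (fderiv ℝ (u t)) y) ∈ O)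
    {s : Set ℝ} (hs : s.Countable)
    (h : ∀ t ∈ Ioo a b \ s, ∀ y ∈ U, HasDerivAt (fun r => u r y)
      (F (t, y, u t y, fderiv ℝ (u t) y, fderiv ℝ (fderiv ℝ (u t)) y)) t) :
    ContDiffOn ℝ ∞ (fun p : ℝ × E => u p.1 p.2) (Icc a b ×ˢ U) ∧
      ∀ t ∈ Icc a b, ∀ y ∈ U, HasDerivWithinAt (fun r => u r y)
        (F (t, y, u t y, fderiv ℝ (u t) y, fderiv ℝ (fderiv ℝ (u t)) y)) (Icc a b) t := by
  have hI := uniqueDiffOn_Icc hab
  exact js_of_closure hab hU (SJ.of_iteratedFDeriv hU h1 h2)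
    (Φ := fun t y => F (t, y, u t y, fderiv ℝ (u t) y, fderiv ℝ (fderiv ℝ (u t)) y))
    (fun n hn => SJ.comp hI hU hO hF
      (SJ.id.prod hU (hn.prod hU ((hn.fderiv hI hU).prod hU ((hn.fderiv hI hU).fderiv hI hU))))
      hm) hs h

/-- gluing of jointly continuous jets in time -/
theorem SJ.glue {c : ℝ} {u : ℝ → E → V} (h1 : SJ 0 (Icc a c) U u) (h2 : SJ 0 (Icc c b) U u) :
    SJ 0 (Icc a b) U u := by
  intro l
  refine ⟨contDiffOn_zero.2 ?_, fun t ht y hy => ?_⟩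
  · intro p hp
    have e : Icc a b ×ˢ U ⊆ (Icc a c ×ˢ U) ∪ (Icc c b ×ˢ U) := fun q hq =>
      (le_total q.1 c).imp (fun h => ⟨⟨hq.1.1, h⟩, hq.2⟩) fun h => ⟨⟨h, hq.1.2⟩, hq.2⟩
    refine ContinuousWithinAt.mono (ContinuousWithinAt.union ?_ ?_) e
    · by_cases hc : p.1 ≤ c
      · exact (h1.dl l).cont p ⟨⟨hp.1.1, hc⟩, hp.2⟩
      · refine continuousWithinAt_of_notMem_closure fun hcl => hc ?_
        rw [closure_prod_eq, isClosed_Icc.closure_eq] at hcl
        exact hcl.1.2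
    · by_cases hc : c ≤ p.1
      · exact (h2.dl l).cont p ⟨⟨hc, hp.1.2⟩, hp.2⟩
      · refine continuousWithinAt_of_notMem_closure fun hcl => hc ?_
        rw [closure_prod_eq, isClosed_Icc.closure_eq] at hcl
        exact hcl.1.1
  · rcases le_total t c with h | h
    · exact (h1 l).df t ⟨ht.1, h⟩ y hy
    · exact (h2 l).df t ⟨h, ht.2⟩ y hy

end Crest.Agent.N207.X
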