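import Crest.Agent.N207.X.Lim
import Crest.Agent.N207.A.Mk

/-! Row 207, block B (end).  (GLUE): a Ricci flow with bounded `∇ʲ Rm` has a smooth limit metric
at the final time, and a flow starting from the limit continues it smoothly. -/

set_option autoImplicit false
set_option linter.unusedSectionVars false
open Set Filter Topology
open scoped ContDiff Manifold
open Crest.GeometryTopology.CoordMetric Crest.GeometryTopology.ChartCurvature
  Crest.GeometryTopology.MetricFamily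
open Crest.Agent.R202.Tens Crest.Agent.R247 Crest.Agent.N207.AI

noncomputable section
namespace Crest.Agent.N207.X

variable {n : ℕ} {M : Type*} [TopologicalSpace M] [ChartedSpace (En n) M]
  [IsManifold 𝓘(ℝ, En n) ∞ M]

theorem rm_chart (m : Met n M) (x : M) {y : En n} (hy : y ∈ tg n x) (j : ℕ) :
    nsq (m.G x) (covN (m.G x) (rmT (m.G x)) j) y = m.rm j ((chartAt (En n) x).symm y) :=
  nsq_covN_rm_pull (m.pull_trans x _) (mem_tdom_self hy) j

variable {m : ℝ → Met n M} {a T : ℝ}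

theorem limHyp (ha : a < T) (hsm : SmFam m (Ico a T)) (hrf : RFOn m (Ico a T))
    (hshi : ∀ j, ∃ C, ∀ t ∈ Ico a T, ∀ x, (m t).rm j x ≤ C) (x : M) :
    LimHyp (fun t => (m t).G x) a T (tg n x) :=
  ⟨ha, (chartAt (En n) x).open_target, hsm x, fun t _ y hy => ((m t).isRiem x).posDef y hy,
    hrf x, fun j => (hshi j).imp fun _ hC t ht _ hy => (rm_chart (m t) x hy j).trans_le (hC t ht _)⟩

/-- the limit metric -/
theorem exists_limit (ha : a < T) (hsm : SmFam m (Ico a T)) (hrf : RFOn m (Ico a T))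
    (hshi : ∀ j, ∃ C, ∀ t ∈ Ico a T, ∀ x, (m t).rm j x ≤ C) :
    ∃ mT : Met n M, ∀ x, ∀ y ∈ tg n x, ∀ i j,
      mT.G x y i j = bar T (fun t y => (m t).G x y i j) T y := by
  have h := limHyp ha hsm hrf hshi
  have ht : ∀ x, ∀ y ∈ tg n x, ∀ i j, Tendsto (fun s => (m s).G x y i j) (𝓝[<] T)
      (𝓝 (bar T (fun t y => (m t).G x y i j) T y)) := by
    intro x y hy i j
    obtain ⟨V, -, hyV, -, h1, -⟩ := (h x).lim hy
    exact (h1 i j).tendsto ha hyV
  let S : CT n M 2 := fun x y I => bar T (fun t y => (m t).G x y (I 0) (I 1)) T y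
  have hS : IsGlob S := by
    refine ⟨fun x I => contDiffOn_of_locally_contDiffOn fun y hy => ?_, fun x₀ x₁ y hy => ?_⟩
    · obtain ⟨V, hV, hyV, -, -, h1, -⟩ := (h x).lim hy
      exact ⟨V, hV, hyV, ((h1 (I 0) (I 1)).slice hV ⟨ha.le, le_rfl⟩).mono inter_subset_right⟩
    · funext I
      refine tendsto_nhds_unique (ht x₀ y hy.1 (I 0) (I 1)) ?_
      have h2 : ∀ s, (m s).G x₀ y (I 0) (I 1) =
          pullT (Bo84.trans x₀ x₁) (matT ((m s).G x₁)) y I :=
        fun s => congrFun (matT_pull ((m s).pull_trans x₀ x₁) hy) I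
      simp only [h2, pullT, evT]
      exact tendsto_finset_sum _ fun J _ => Tendsto.const_mul _
        (ht x₁ _ (((m T).pull_trans x₀ x₁).maps y hy) (J 0) (J 1))
  refine ⟨Met.ofCT S hS fun x => posDef_of_bil (fun i j => ?_) fun v hv => ?_,
    fun x y hy i j => Met.ofCT_G S hS _ x hy i j⟩
  · refine tendsto_nhds_unique (ht x _ (mem_chart_target (En n) x) i j)
      ((ht x _ (mem_chart_target (En n) x) j i).congr fun s => ?_)
    simpa using (((m s).isRiem x).posDef _ (mem_chart_target (En n) x)).isHermitian.apply i j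
  · obtain ⟨V, -, hyV, -, -, -, c, hc, h1⟩ := (h x).lim (mem_chart_target (En n) x)
    have h2 : Tendsto (fun s => bil ((m s).G x (ctr n x)) v v) (𝓝[<] T)
        (𝓝 (bil (Matrix.of fun i j => S x (ctr n x) ![i, j]) v v)) := by
      simp only [bil_apply]
      exact tendsto_finset_sum _ fun i _ => tendsto_finset_sum _ fun j _ =>
        ((ht x _ (mem_chart_target (En n) x) i j).mul_const _).mul_const _
    have h3 : c * ‖v‖ ^ 2 ≤ bil (Matrix.of fun i j => S x (ctr n x) ![i, j]) v v := by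
      refine ge_of_tendsto h2 ?_
      filter_upwards [Ico_mem_nhdsLT ha] with s hs
      exact h1 s hs _ hyV v
    exact lt_of_lt_of_le (mul_pos hc (pow_pos (norm_pos_iff.2 hv) 2)) h3

/-- concatenation of two families -/
def cat (T : ℝ) (m m₂ : ℝ → Met n M) : ℝ → Met n M := fun t => if t < T then m t else m₂ (t - T)

variable {m₂ : ℝ → Met n M} {S : ℝ}

theorem cat_lt {t : ℝ} (ht : t < T) : cat T m m₂ t = m t := if_pos ht

theorem cat_ge {t : ℝ} (ht : T ≤ t) : cat T m m₂ t = m₂ (t - T) := if_neg (not_lt.2 ht)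

theorem cat_rf_lt {J : Set ℝ} (hrf : RFOn m J) (x : M) {t : ℝ} (ht : t ∈ J) (h : t < T) {y : En n}
    (hy : y ∈ tg n x) (i j : Fin n) : HasDerivAt (fun s => (cat T m m₂ s).G x y i j)
      (-2 * ricci ((cat T m m₂ t).G x) y i j) t := by
  rw [cat_lt h]
  refine (hrf x t ht y hy i j).congr_of_eventuallyEq ?_
  filter_upwards [Iio_mem_nhds h] with s hs
  rw [cat_lt hs]

theorem cat_rf_gt {J : Set ℝ} (hrf : RFOn m₂ J) (x : M) {t : ℝ} (ht : t - T ∈ J) (h : T < t)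
    {y : En n} (hy : y ∈ tg n x) (i j : Fin n) : HasDerivAt (fun s => (cat T m m₂ s).G x y i j)
      (-2 * ricci ((cat T m m₂ t).G x) y i j) t := by
  rw [cat_ge h.le]
  refine ((hrf x (t - T) ht y hy i j).comp_sub_const t T).congr_of_eventuallyEq ?_
  filter_upwards [Ioi_mem_nhds h] with s hs
  rw [cat_ge (le_of_lt hs)]

theorem cat_sm_ge (hsm : SmFam m₂ (Ico 0 S)) (x : M) (i j : Fin n) :
    ContDiffOn ℝ ∞ (fun p : ℝ × En n => (cat T m m₂ p.1).G x p.2 i j)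
      (Ico T (T + S) ×ˢ tg n x) := by
  refine ((hsm x i j).comp (f := fun p : ℝ × En n => (p.1 - T, p.2)) (by fun_prop)
    fun p hp => ⟨⟨sub_nonneg.2 hp.1.1, by linarith [hp.1.2]⟩, hp.2⟩).congr fun p hp => ?_
  rw [cat_ge hp.1.1]
  rfl

/-- smoothness and the equation across the time `T` -/
theorem cat_at (ha : a < T) (hsm : SmFam m (Ico a T)) (hrf : RFOn m (Ico a T))
    (hshi : ∀ j, ∃ C, ∀ t ∈ Ico a T, ∀ x, (m t).rm j x ≤ C) (hS : 0 < S)
    (hsm₂ : SmFam m₂ (Ico 0 S)) (hrf₂ : RFOn m₂ (Ioo 0 S))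
    (h0 : ∀ x, ∀ y ∈ tg n x, ∀ i j,
      (m₂ 0).G x y i j = bar T (fun t y => (m t).G x y i j) T y)
    (x : M) {y : En n} (hy : y ∈ tg n x) :
    ∃ V, IsOpen V ∧ y ∈ V ∧ ∀ i j,
      ContDiffOn ℝ ∞ (fun p : ℝ × En n => (cat T m m₂ p.1).G x p.2 i j)
        (Icc a (T + S / 2) ×ˢ V) ∧
      HasDerivAt (fun s => (cat T m m₂ s).G x y i j)
        (-2 * ricci ((cat T m m₂ T).G x) y i j) T := by
  obtain ⟨V, hV, hyV, hs, -, h1, -⟩ := (limHyp ha hsm hrf hshi x).lim hy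
  have hb : T < T + S / 2 := by linarith
  have hab : a < T + S / 2 := ha.trans hb
  have hI := uniqueDiffOn_Icc hab
  have h2 : ∀ i j, SJ 0 (Icc a (T + S / 2)) V fun t y => (cat T m m₂ t).G x y i j := by
    intro i j
    refine SJ.glue (c := T) ((h1 i j).congr hV fun t ht z hz => ?_)
      (SJ.of_contDiffOn (uniqueDiffOn_Icc hb) hV ((cat_sm_ge hsm₂ x i j).mono
        (prod_mono (Icc_subset_Ico_right (by linarith)) hs)))
    rcases ht.2.lt_or_eq with h | h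
    · rw [cat_lt h, bar_of_lt h]
    · rw [h, cat_ge le_rfl, sub_self]
      exact h0 x z (hs hz) i j
  obtain ⟨h3, h4⟩ := js_of_closure hab hV
    (u := fun t y (i j : Fin n) => (cat T m m₂ t).G x y i j)
    (Φ := fun t y (i j : Fin n) => -2 * ricci ((cat T m m₂ t).G x) y i j)
    (SJ.pi hI hV fun i => SJ.pi hI hV fun j => h2 i j)
    (fun N hN => SJ.pi hI hV fun i => SJ.pi hI hV fun j =>
      (SJ.ricci (G := fun t => (cat T m m₂ t).G x) hI hV
        (fun i j => (hN.clm hI hV (ContinuousLinearMap.proj i)).clm hI hV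
          (ContinuousLinearMap.proj (R := ℝ) (φ := fun _ : Fin n => ℝ) j))
        (fun t _ z hz => (((cat T m m₂ t).isRiem x).posDef z (hs hz)).det_pos.ne') i j).cmul
          hI hV _)
    (countable_singleton T) fun t ht z hz => hasDerivAt_pi.2 fun i => hasDerivAt_pi.2 fun j => by
      rcases lt_or_gt_of_ne (show t ≠ T from ht.2) with h | h
      · exact cat_rf_lt hrf x ⟨ht.1.1.le, h⟩ h (hs hz) i j
      · exact cat_rf_gt hrf₂ x ⟨sub_pos.2 h, by linarith [ht.1.2]⟩ h (hs hz) i j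
  refine ⟨V, hV, hyV, fun i j => ⟨contDiffOn_pi.1 (contDiffOn_pi.1 h3 i) j, ?_⟩⟩
  exact hasDerivAt_pi.1 (hasDerivAt_pi.1
    ((h4 T ⟨ha.le, hb.le⟩ y hyV).hasDerivAt (Icc_mem_nhds ha hb)) i) j

/-- **(GLUE)**, any dimension -/
theorem exists_extension (ha0 : 0 < a) (ha : a < T) (hsm : SmFam m (Ico 0 T))
    (hrf : RFOn m (Ioo 0 T)) (hshi : ∀ j, ∃ C, ∀ t ∈ Ico a T, ∀ x, (m t).rm j x ≤ C)
    (ste : ∀ m₀ : Met n M, ∃ S > 0, ∃ m₂ : ℝ → Met n M,
      SmFam m₂ (Ico 0 S) ∧ RFOn m₂ (Ioo 0 S) ∧ m₂ 0 = m₀) :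
    ∃ S > 0, ∃ m' : ℝ → Met n M, SmFam m' (Ico 0 (T + S)) ∧ RFOn m' (Ioo 0 (T + S)) ∧
      ∀ t < T, m' t = m t := by
  have hsm' : SmFam m (Ico a T) := fun x i j =>
    (hsm x i j).mono (prod_mono (Ico_subset_Ico_left ha0.le) Subset.rfl)
  have hrf' : RFOn m (Ico a T) := fun x t ht => hrf x t ⟨ha0.trans_le ht.1, ht.2⟩
  obtain ⟨mT, hmT⟩ := exists_limit ha hsm' hrf' hshi
  obtain ⟨S, hS, m₂, hsm₂, hrf₂, h0⟩ := ste mT
  have h1 := fun x y hy => cat_at ha hsm' hrf' hshi hS hsm₂ hrf₂ (h0 ▸ hmT) x (y := y) hy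
  refine ⟨S, hS, cat T m m₂, fun x i j => contDiffOn_of_locally_contDiffOn fun p hp => ?_,
    fun x t ht y hy i j => ?_, fun t ht => cat_lt ht⟩
  · rcases lt_trichotomy p.1 T with h | h | h
    · refine ⟨Iio T ×ˢ univ, isOpen_Iio.prod isOpen_univ, ⟨h, mem_univ _⟩,
        ((hsm x i j).mono fun q hq => ⟨⟨hq.1.1.1, hq.2.1⟩, hq.1.2⟩).congr fun q hq => ?_⟩
      rw [cat_lt hq.2.1]
    · obtain ⟨V, hV, hyV, h2⟩ := h1 x p.2 hp.2
      exact ⟨Ioo a (T + S / 2) ×ˢ V, isOpen_Ioo.prod hV, ⟨⟨h ▸ ha, by rw [h]; linarith⟩, hyV⟩,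
        (h2 i j).1.mono fun q hq => ⟨Ioo_subset_Icc_self hq.2.1, hq.2.2⟩⟩
    · exact ⟨Ioi T ×ˢ univ, isOpen_Ioi.prod isOpen_univ, ⟨h, mem_univ _⟩,
        (cat_sm_ge hsm₂ x i j).mono fun q hq => ⟨⟨le_of_lt hq.2.1, hq.1.1.2⟩, hq.1.2⟩⟩
  · rcases lt_trichotomy t T with h | h | h
    · exact cat_rf_lt hrf x ⟨ht.1, h⟩ h hy i j
    · obtain ⟨V, -, -, h2⟩ := h1 x y hy
      rw [h]
      exact (h2 i j).2
    · exact cat_rf_gt hrf₂ x ⟨sub_pos.2 h, by linarith [ht.2]⟩ h hy i j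

end Crest.Agent.N207.X

namespace Crest.Agent.N207

variable {M : Type*} [TopologicalSpace M] [ChartedSpace E4 M] [IsManifold 𝓘(ℝ, E4) ∞ M]

/-- **extension of a flow** from Shi's bounds near `T` and short time existence -/
theorem Flow.extends_of_shi (F : Flow M)
    (hshi : ∀ j, ∃ C, ∀ t ∈ Ico (F.T / 2) F.T, ∀ x, (F.m t).rm j x ≤ C)
    (ste : ∀ m₀ : Met 4 M, ∃ F' : Flow M, F'.m 0 = m₀) : F.Extends := by
  obtain ⟨S, hS, m', h1, h2, h3⟩ := X.exists_extension (half_pos F.hT) (half_lt_self F.hT)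
    F.sm F.rf hshi fun m₀ => by
      obtain ⟨F', h⟩ := ste m₀
      exact ⟨F'.T, F'.hT, F'.m, F'.sm, F'.rf, h⟩
  exact ⟨⟨F.T + S, by linarith [F.hT], m', h1, h2⟩, by simpa using hS, fun t ht => h3 t ht.2⟩

end Crest.Agent.N207
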