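import Crest.Agent.N207.AI.Ev

/-! Row 207, block B (end).  Pointwise bounds: components and the Ricci form against norms. -/

set_option autoImplicit false
set_option linter.unusedSectionVars false
open Set Filter Topology
open scoped ContDiff
open Crest.GeometryTopology.CoordMetric Crest.GeometryTopology.ChartCurvature
  Crest.GeometryTopology.MetricFamily
open Crest.Agent.R202.Tens Crest.Agent.R247.Bo84 Crest.Agent.N207.AI

noncomputable section
namespace Crest.Agent.N207.X

variable {n k : ℕ} {G : MetricField n} {U : Set (En n)} {y : En n}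

theorem evT_sq_le (hG : IsRiemannianOn G U) (hy : y ∈ U) (A : Arr n k) (v : Fin k → En n) :
    evT A v ^ 2 ≤ ipA (G y)⁻¹ A A * ∏ s, bil (G y) (v s) (v s) := by
  obtain ⟨e, he⟩ := exists_frame hG hy
  have h1 : v = fun s => ∑ a, bil (G y) (v s) (e a) • e a :=
    funext fun s => he.expand hG hy (v s)
  have h2 : evT A v = ∑ I : Fin k → Fin n, (∏ s, bil (G y) (v s) (e (I s))) * frA e A I := by
    conv_lhs => rw [h1]
    exact evT_expand A _ e
  have h3 : ∏ s, bil (G y) (v s) (v s) =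
      ∑ I : Fin k → Fin n, (∏ s, bil (G y) (v s) (e (I s))) ^ 2 := by
    simp only [he.bil_eq hG hy (v _) (v _)]
    rw [Finset.prod_univ_sum]
    simp only [Fintype.piFinset_univ, Finset.prod_mul_distrib, sq]
  rw [h2, h3, ipA_frame he.inv, mul_comm]
  simp only [← sq]
  exact Finset.sum_mul_sq_le_sq_mul_sq _ _ _

theorem comp_sq_le (hG : IsRiemannianOn G U) (hy : y ∈ U) (T : Tn n k) (I : Fin k → Fin n) :
    T y I ^ 2 ≤ nsq G T y * ∏ s, G y (I s) (I s) := by
  have h := evT_sq_le hG hy (T y) fun s => eb (I s)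
  rw [evT_single] at h
  refine h.trans_eq ?_
  congr 1
  refine Finset.prod_congr rfl fun s _ => ?_
  rw [bil_apply]
  simp [eb]

theorem ricci_eq_tr (hG : IsRiemannianOn G U) (hy : y ∈ U) (a b : Fin n) :
    ricci G y a b = ∑ l, ∑ i, (G y)⁻¹ l i * rmT G y ![l, a, i, b] := by
  rw [ricci_eq_sum_riemann hG hy, Finset.sum_comm]
  refine Finset.sum_congr rfl fun i _ => ?_
  have h1 : ∀ m, ∑ l, (G y)⁻¹ l i * G y l m = if i = m then 1 else 0 := by
    intro m
    have hp := hG.posDef y hy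
    have h2 : (G y)⁻¹ * G y = 1 :=
      Matrix.nonsing_inv_mul _ (isUnit_iff_ne_zero.2 hp.det_pos.ne')
    have h3 := congrFun (congrFun h2 i) m
    rw [Matrix.mul_apply, Matrix.one_apply] at h3
    rw [← h3]
    refine Finset.sum_congr rfl fun l _ => ?_
    have h4 := hp.inv.isHermitian.apply i l
    simp only [star_trivial] at h4
    rw [h4]
  simp only [rmT, riemannLower, Matrix.cons_val_zero, Matrix.cons_val_one, Matrix.cons_val,
    Finset.mul_sum, ← mul_assoc]
  rw [Finset.sum_comm]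
  simp only [← Finset.sum_mul, h1]
  simp

theorem abs_ric_le (hG : IsRiemannianOn G U) (hy : y ∈ U) {C : ℝ} (hC : nsq G (rmT G) y ≤ C)
    (v : En n) : |∑ a, ∑ b, ricci G y a b * v a * v b| ≤ n * √C * bil (G y) v v := by
  obtain ⟨e, he⟩ := exists_frame hG hy
  have h1 : ∑ a, ∑ b, ricci G y a b * v a * v b = ∑ c, evT (rmT G y) ![e c, v, e c, v] := by
    simp only [evT_four, ricci_eq_tr hG hy, he.inv, Finset.sum_mul, Matrix.cons_val_zero,
      Matrix.cons_val_one, Matrix.cons_val]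
    calc _ = ∑ a, ∑ b, ∑ l, ∑ i, ∑ c, e c l * v a * e c i * v b * rmT G y ![l, a, i, b] := by
          refine Finset.sum_congr rfl fun a _ => Finset.sum_congr rfl fun b _ =>
            Finset.sum_congr rfl fun l _ => Finset.sum_congr rfl fun i _ =>
            Finset.sum_congr rfl fun c _ => by ring
      _ = ∑ a, ∑ l, ∑ i, ∑ b, ∑ c, e c l * v a * e c i * v b * rmT G y ![l, a, i, b] := by
          refine Finset.sum_congr rfl fun a _ => ?_
          rw [Finset.sum_comm]
          exact Finset.sum_congr rfl fun l _ => Finset.sum_comm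
      _ = ∑ l, ∑ a, ∑ i, ∑ b, ∑ c, e c l * v a * e c i * v b * rmT G y ![l, a, i, b] :=
          Finset.sum_comm
      _ = ∑ l, ∑ a, ∑ i, ∑ c, ∑ b, e c l * v a * e c i * v b * rmT G y ![l, a, i, b] :=
          Finset.sum_congr rfl fun _ _ => Finset.sum_congr rfl fun _ _ =>
            Finset.sum_congr rfl fun _ _ => Finset.sum_comm
      _ = ∑ l, ∑ a, ∑ c, ∑ i, ∑ b, e c l * v a * e c i * v b * rmT G y ![l, a, i, b] :=
          Finset.sum_congr rfl fun _ _ => Finset.sum_congr rfl fun _ _ => Finset.sum_comm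
      _ = ∑ l, ∑ c, ∑ a, ∑ i, ∑ b, e c l * v a * e c i * v b * rmT G y ![l, a, i, b] :=
          Finset.sum_congr rfl fun _ _ => Finset.sum_comm
      _ = _ := Finset.sum_comm
  have hv : 0 ≤ bil (G y) v v := by
    rw [he.bil_eq hG hy]
    exact Finset.sum_nonneg fun a _ => mul_self_nonneg _
  have h2 : ∀ c, |evT (rmT G y) ![e c, v, e c, v]| ≤ √C * bil (G y) v v := by
    intro c
    have h3 := evT_sq_le hG hy (rmT G y) ![e c, v, e c, v]
    simp only [Fin.prod_univ_four, Matrix.cons_val_zero, Matrix.cons_val_one, Matrix.cons_val,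
      he.orth, if_true, one_mul, mul_one] at h3
    refine abs_le_of_sq_le_sq' ?_ (by positivity) |> abs_le.2
    have h4 : (0:ℝ) ≤ ipA (G y)⁻¹ (rmT G y) (rmT G y) := by
      rw [ipA_frame he.inv]
      exact Finset.sum_nonneg fun a _ => mul_self_nonneg _
    have h5 : ipA (G y)⁻¹ (rmT G y) (rmT G y) ≤ C := hC
    rw [mul_pow, Real.sq_sqrt (h4.trans h5), sq (bil (G y) v v)]
    exact h3.trans (mul_le_mul_of_nonneg_right h5 (mul_nonneg hv hv))
  rw [h1]
  refine (Finset.abs_sum_le_sum_abs _ _).trans ((Finset.sum_le_sum fun c _ => h2 c).trans_eq ?_)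
  simp [mul_assoc]

theorem abs_entry_le (hG : IsRiemannianOn G U) (hy : y ∈ U) {Λ : ℝ}
    (h : ∀ v : En n, bil (G y) v v ≤ Λ * ‖v‖ ^ 2) (i j : Fin n) : |G y i j| ≤ Λ := by
  obtain ⟨e, he⟩ := exists_frame hG hy
  have h0 : ∀ a b : Fin n, bil (G y) (eb a) (eb b) = G y a b := by
    intro a b
    rw [bil_apply]
    simp [eb]
  have h1 : ∀ a : Fin n, bil (G y) (eb a) (eb a) ≤ Λ := fun a => by simpa [eb] using h (eb a)
  have h2 : ∀ a : Fin n, 0 ≤ bil (G y) (eb a) (eb a) := fun a => by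
    rw [he.bil_eq hG hy]
    exact Finset.sum_nonneg fun a _ => mul_self_nonneg _
  have h3 : bil (G y) (eb i) (eb j) ^ 2 ≤ bil (G y) (eb i) (eb i) * bil (G y) (eb j) (eb j) := by
    simp only [he.bil_eq hG hy (eb _) (eb _), ← sq]
    exact Finset.sum_mul_sq_le_sq_mul_sq _ _ _
  rw [← h0]
  refine abs_le.2 (abs_le_of_sq_le_sq' (h3.trans ?_) ((h2 i).trans (h1 i)))
  rw [sq]
  exact mul_le_mul (h1 i) (h1 j) (h2 j) ((h2 i).trans (h1 i))

theorem abs_inv_entry_le (hG : IsRiemannianOn G U) (hy : y ∈ U) {c : ℝ} (hc : 0 < c)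
    (h : ∀ v : En n, c * ‖v‖ ^ 2 ≤ bil (G y) v v) (i j : Fin n) : |(G y)⁻¹ i j| ≤ n / c := by
  obtain ⟨e, he⟩ := exists_frame hG hy
  have h1 : ∀ a, ‖e a‖ ^ 2 ≤ 1 / c := fun a => by
    have := h (e a)
    rw [he.orth, if_pos rfl] at this
    rw [le_div_iff₀ hc]
    linarith
  rw [he.inv]
  refine (Finset.abs_sum_le_sum_abs _ _).trans ((Finset.sum_le_sum (g := fun _ => 1 / c)
    fun a _ => ?_).trans_eq (by simp [div_eq_mul_inv]))
  rw [abs_mul]
  refine le_trans ?_ (h1 a)
  rw [sq]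
  exact mul_le_mul (PiLp.norm_apply_le (e a) i) (PiLp.norm_apply_le (e a) j) (abs_nonneg _)
    (norm_nonneg _)

end Crest.Agent.N207.X
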