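import Crest.Agent.N207.X.Jet

/-! Row 207, block B (end).  Extension of a function whose spatial jets are Lipschitz in time on
`[a, T)` to the final time `T`. -/

set_option autoImplicit false
set_option linter.unusedSectionVars false
open Set Filter Topology
open scoped ContDiff

noncomputable section
namespace Crest.Agent.N207.X

variable {E : Type*} [NormedAddCommGroup E] [NormedSpace ℝ E] {ι : Type*}
variable {V : Type*} [NormedAddCommGroup V] [NormedSpace ℝ V]
variable {n : ℕ} {I : Set ℝ} {U : Set E}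

/-- linear combinations, up to equality on `I × U` -/
inductive Span (I : Set ℝ) (U : Set E) (P : (ℝ → E → V) → Prop) : (ℝ → E → V) → Prop
  | base {w : ℝ → E → V} : P w → Span I U P w
  | zero : Span I U P (fun _ _ => 0)
  | add {w w' : ℝ → E → V} : Span I U P w → Span I U P w' → Span I U P (fun t y => w t y + w' t y)
  | smul (c : ℝ) {w : ℝ → E → V} : Span I U P w → Span I U P (fun t y => c • w t y)
  | congr {w w' : ℝ → E → V} : Span I U P w → EqI I U w' w → Span I U P w'

theorem Span.sum {P : (ℝ → E → V) → Prop} {κ : Type*} (s : Finset κ) {w : κ → ℝ → E → V}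
    (h : ∀ i ∈ s, Span I U P (w i)) : Span I U P (fun t y => ∑ i ∈ s, w i t y) := by
  classical
  induction s using Finset.induction_on with
  | empty => simpa using Span.zero
  | insert a s ha ih =>
    simp only [Finset.sum_insert ha]
    exact (h a (by simp)).add (ih fun i hi => h i (by simp [hi]))

/-- coinduction along the directions of a basis -/
theorem SJ.of_coind_basis [Fintype ι] (hU : IsOpen U) (b : Module.Basis ι ℝ E)
    (P : (ℝ → E → V) → Prop)
    (hP : ∀ w, P w → Base n I U w ∧ ∀ a, P (X.dv (b a) w)) {w : ℝ → E → V} (h : P w) :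
    SJ n I U w := by
  refine SJ.of_coind (Span I U P) (fun w hw => ?_) (Span.base h)
  induction hw with
  | @base w h =>
    refine ⟨(hP w h).1, fun v => Span.congr (Span.sum Finset.univ fun a _ =>
      Span.smul (b.repr v a) (Span.base ((hP w h).2 a))) fun t _ y _ => ?_⟩
    simp only [X.dv]
    have h : _root_.fderiv ℝ (w t) y v = _root_.fderiv ℝ (w t) y (∑ i, b.repr v i • b i) := by
      rw [b.sum_repr v]
    rw [h, map_sum]
    simp
  | zero =>
    exact ⟨⟨contDiffOn_const, fun _ _ _ _ => differentiableAt_const _⟩,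
      fun v => Span.congr Span.zero fun t _ y _ => by simp [X.dv]⟩
  | @add w w' _ _ ih ih' =>
    refine ⟨⟨ih.1.cd.add ih'.1.cd, fun t ht y hy => (ih.1.df t ht y hy).add (ih'.1.df t ht y hy)⟩,
      fun v => Span.congr ((ih.2 v).add (ih'.2 v)) fun t ht y hy => ?_⟩
    simp only [X.dv]
    rw [fderiv_fun_add (ih.1.df t ht y hy) (ih'.1.df t ht y hy)]
    rfl
  | @smul c w _ ih =>
    refine ⟨⟨ih.1.cd.const_smul c, fun t ht y hy => (ih.1.df t ht y hy).const_smul c⟩,
      fun v => Span.congr ((ih.2 v).smul c) fun t ht y hy => ?_⟩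
    simp only [X.dv]
    rw [fderiv_fun_const_smul (ih.1.df t ht y hy)]
    rfl
  | @congr w w' _ q ih => exact ⟨ih.1.congr hU q, fun v => (ih.2 v).congr (q.dv hU v)⟩

/-- time slices of a function with all spatial jets are smooth -/
theorem SJ.slice [FiniteDimensional ℝ E] (hU : IsOpen U) {w : ℝ → E → V} (h : SJ n I U w)
    {t : ℝ} (ht : t ∈ I) : ContDiffOn ℝ ∞ (w t) U := by
  refine contDiffOn_infty.2 fun m => ?_
  induction m generalizing w with
  | zero => exact contDiffOn_zero.2 fun y hy => (h.df ht hy).continuousAt.continuousWithinAt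
  | succ m ih =>
    have e : ((m + 1 : ℕ) : WithTop ℕ∞) = (m : WithTop ℕ∞) + 1 := by push_cast; rfl
    rw [e, contDiffOn_succ_iff_fderiv_of_isOpen hU]
    refine ⟨fun y hy => (h.df ht hy).differentiableWithinAt, by simp, ?_⟩
    exact (ContDiffOn.sum (s := Finset.univ) fun i _ =>
      (ContinuousLinearMap.smulRightL ℝ E V (LinearMap.toContinuousLinearMap
        ((Module.finBasis ℝ E).coord i))).contDiff.comp_contDiffOn
        (ih (h.dv (Module.finBasis ℝ E i)))).congr fun y _ => fderiv_eq_sum _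

/-- extension to `t ≥ T` by the left limit -/
def bar (T : ℝ) (f : ℝ → E → ℝ) : ℝ → E → ℝ := fun t y =>
  if t < T then f t y else limUnder (𝓝[<] T) fun s => f s y

/-- Lipschitz in time, uniformly in space -/
def Lip (I : Set ℝ) (U : Set E) (f : ℝ → E → ℝ) : Prop :=
  ∃ C, 0 ≤ C ∧ ∀ s ∈ I, ∀ t ∈ I, ∀ y ∈ U, |f t y - f s y| ≤ C * |t - s|

variable {a T : ℝ} {f : ℝ → E → ℝ}

theorem bar_of_lt {t : ℝ} (ht : t < T) : bar T f t = f t := by
  funext y
  simp [bar, ht]

theorem bar_self (y : E) : bar T f T y = limUnder (𝓝[<] T) fun s => f s y := by simp [bar]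

theorem Lip.tendsto (ha : a < T) (h : Lip (Ico a T) U f) {y : E} (hy : y ∈ U) :
    Tendsto (fun s => f s y) (𝓝[<] T) (𝓝 (bar T f T y)) := by
  obtain ⟨C, hC0, hC⟩ := h
  have h1 : LipschitzOnWith ⟨C, hC0⟩ (fun s => f s y) (Ico a T) :=
    LipschitzOnWith.of_dist_le_mul fun s hs t ht => hC t ht s hs y hy
  obtain ⟨g, hg, e⟩ := h1.extend_real
  have h2 : Tendsto (fun s => f s y) (𝓝[<] T) (𝓝 (g T)) := by
    refine (hg.continuous.continuousAt.continuousWithinAt (s := Iio T)).tendsto.congr' ?_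
    filter_upwards [Ico_mem_nhdsLT ha] with s hs
    exact (e hs).symm
  rw [bar_self, h2.limUnder_eq]
  exact h2

theorem Lip.bar (ha : a < T) (h : Lip (Ico a T) U f) : Lip (Icc a T) U (bar T f) := by
  obtain ⟨C, hC0, hC⟩ := id h
  have h1 : ∀ s ∈ Ico a T, ∀ y ∈ U, |X.bar T f T y - f s y| ≤ C * |T - s| := by
    intro s hs y hy
    refine le_of_tendsto_of_tendsto (((h.tendsto ha hy).sub_const (f s y)).abs)
      (((tendsto_nhdsWithin_of_tendsto_nhds (s := Iio T) tendsto_id).sub_const s).abs.const_mul C)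
      ?_
    filter_upwards [Ico_mem_nhdsLT ha] with t ht
    exact hC s hs t ht y hy
  refine ⟨C, hC0, fun s hs t ht y hy => ?_⟩
  rcases hs.2.lt_or_eq with hs' | hs' <;> rcases ht.2.lt_or_eq with ht' | ht'
  · rw [bar_of_lt hs', bar_of_lt ht']
    exact hC s ⟨hs.1, hs'⟩ t ⟨ht.1, ht'⟩ y hy
  · rw [bar_of_lt hs', ht']
    exact h1 s ⟨hs.1, hs'⟩ y hy
  · rw [bar_of_lt ht', hs', abs_sub_comm, abs_sub_comm t]
    exact h1 t ⟨ht.1, ht'⟩ y hy
  · rw [hs', ht']
    simp

theorem Lip.cont (h : Lip I U f) (hc : ∀ t ∈ I, ∀ y ∈ U, ContinuousAt (f t) y) :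
    ContinuousOn (fun p : ℝ × E => f p.1 p.2) (I ×ˢ U) := by
  obtain ⟨C, hC0, hC⟩ := h
  intro p hp
  have h1 : Tendsto (fun q : ℝ × E => f q.1 q.2 - f p.1 q.2) (𝓝[I ×ˢ U] p) (𝓝 0) := by
    have h2 : Tendsto (fun q : ℝ × E => C * |q.1 - p.1|) (𝓝[I ×ˢ U] p) (𝓝 0) := by
      have h3 : Continuous fun q : ℝ × E => C * |q.1 - p.1| := by fun_prop
      simpa using (h3.continuousAt (x := p)).continuousWithinAt.tendsto
    refine squeeze_zero_norm' ?_ h2
    filter_upwards [self_mem_nhdsWithin] with q hq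
    exact hC p.1 hp.1 q.1 hq.1 q.2 hq.2
  have h4 : Tendsto (fun q : ℝ × E => f p.1 q.2) (𝓝[I ×ˢ U] p) (𝓝 (f p.1 p.2)) :=
    ((hc p.1 hp.1 p.2 hp.2).comp continuousAt_snd).continuousWithinAt.tendsto
  simpa [ContinuousWithinAt] using h1.add h4

theorem Lip.tendstoUniformlyOn (ha : a < T) (h : Lip (Ico a T) U f) :
    TendstoUniformlyOn f (X.bar T f T) (𝓝[<] T) U := by
  obtain ⟨C, hC0, hC⟩ := h.bar ha
  rw [Metric.tendstoUniformlyOn_iff]
  intro ε hε
  have h2 : Tendsto (fun s : ℝ => C * |T - s|) (𝓝[<] T) (𝓝 0) := by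
    have h3 : Continuous fun s : ℝ => C * |T - s| := by fun_prop
    simpa using (h3.continuousAt (x := T)).continuousWithinAt.tendsto
  filter_upwards [Ico_mem_nhdsLT ha, h2.eventually (gt_mem_nhds hε)] with s hs hs' y hy
  have h4 := hC s (Ico_subset_Icc_self hs) T ⟨ha.le, le_rfl⟩ y hy
  rw [bar_of_lt hs.2] at h4
  exact h4.trans_lt hs'

/-- all jets along the directions `e a` exist and are Lipschitz in time -/
def Good (e : ι → E) (I : Set ℝ) (U : Set E) (f : ℝ → E → ℝ) : Prop :=
  ∀ l : List ι, Lip I U (dl (l.map e) f) ∧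
    ∀ t ∈ I, ∀ y ∈ U, DifferentiableAt ℝ (dl (l.map e) f t) y

theorem Good.dv {e : ι → E} (h : Good e I U f) (i : ι) : Good e I U (dv (e i) f) :=
  fun l => h (i :: l)

theorem Good.lip {e : ι → E} (h : Good e I U f) : Lip I U f := (h []).1

theorem clm_eq_sum [Fintype ι] [FiniteDimensional ℝ E] (b : Module.Basis ι ℝ E)
    (L : E →L[ℝ] ℝ) : L = ∑ i, L (b i) • LinearMap.toContinuousLinearMap (b.coord i) := by
  ext v
  have h : L v = L (∑ i, b.repr v i • b i) := by rw [b.sum_repr v]
  rw [h, map_sum]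
  simp [mul_comm]

theorem Good.hasFDerivAt [Fintype ι] [FiniteDimensional ℝ E] (ha : a < T) (hU : IsOpen U)
    (b : Module.Basis ι ℝ E) (h : Good b (Ico a T) U f) {y : E} (hy : y ∈ U) :
    HasFDerivAt (bar T f T)
      (∑ i, bar T (X.dv (b i) f) T y • LinearMap.toContinuousLinearMap (b.coord i)) y := by
  refine hasFDerivAt_of_tendstoUniformlyOn (l := 𝓝[<] T)
    (f := fun s z => if s ∈ Ico a T then f s z else 0)
    (f' := fun s z => if s ∈ Ico a T then fderiv ℝ (f s) z else 0)
    (g' := fun z => ∑ i, bar T (X.dv (b i) f) T z • LinearMap.toContinuousLinearMap (b.coord i))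
    hU ?_ (fun s z hz => ?_) (fun z hz => ?_) hy
  · have h1 : ∀ s : Finset ι, TendstoUniformlyOn
        (fun r z => ∑ i ∈ s, X.dv (b i) f r z • LinearMap.toContinuousLinearMap (b.coord i))
        (fun z => ∑ i ∈ s, bar T (X.dv (b i) f) T z •
          LinearMap.toContinuousLinearMap (b.coord i)) (𝓝[<] T) U := by
      classical
      intro s
      induction s using Finset.induction_on with
      | empty => simpa using (tendsto_const_nhds (x := (0 : E →L[ℝ] ℝ))).tendstoUniformlyOn_const U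
      | insert i s hi ih =>
        simp only [Finset.sum_insert hi]
        exact ((ContinuousLinearMap.toSpanSingleton ℝ (LinearMap.toContinuousLinearMap
          (b.coord i))).uniformContinuous.comp_tendstoUniformlyOn
            ((h.dv i).lip.tendstoUniformlyOn ha)).add ih
    refine (h1 Finset.univ).congr ?_
    filter_upwards [Ico_mem_nhdsLT ha] with s hs z _
    simp only [if_pos hs]
    exact (clm_eq_sum b _).symm
  · by_cases hs : s ∈ Ico a T
    · simp only [if_pos hs]
      exact ((h []).2 s hs z hz).hasFDerivAt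
    · simp only [if_neg hs]
      exact hasFDerivAt_const _ _
  · refine (h.lip.tendsto ha hz).congr' ?_
    filter_upwards [Ico_mem_nhdsLT ha] with s hs
    rw [if_pos hs]

/-- **limit at the final time** -/
theorem Good.sj [Fintype ι] [FiniteDimensional ℝ E] (ha : a < T) (hU : IsOpen U)
    (b : Module.Basis ι ℝ E) (h : Good b (Ico a T) U f) : SJ 0 (Icc a T) U (bar T f) := by
  classical
  refine SJ.of_coind_basis hU b
    (fun w => ∃ g, Good b (Ico a T) U g ∧ EqI (Icc a T) U w (bar T g)) ?_ ⟨f, h, EqI.refl _⟩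
  rintro w ⟨g, hg, q⟩
  have hd : ∀ t ∈ Icc a T, ∀ y ∈ U, DifferentiableAt ℝ (bar T g t) y := by
    intro t ht y hy
    rcases ht.2.lt_or_eq with ht' | ht'
    · rw [bar_of_lt ht']
      exact (hg []).2 t ⟨ht.1, ht'⟩ y hy
    · rw [ht']
      exact (hg.hasFDerivAt ha hU b hy).differentiableAt
  refine ⟨Base.congr hU ⟨contDiffOn_zero.2 ((hg.lip.bar ha).cont
    fun t ht y hy => (hd t ht y hy).continuousAt), hd⟩ q,
    fun i => ⟨X.dv (b i) g, hg.dv i, (q.dv hU _).trans fun t ht y hy => ?_⟩⟩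
  rcases ht.2.lt_or_eq with ht' | ht'
  · simp only [X.dv, bar_of_lt ht']
  · rw [ht']
    simp only [X.dv]
    rw [(hg.hasFDerivAt ha hU b hy).fderiv]
    simp [Finsupp.single_apply]

end Crest.Agent.N207.X
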