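import Mathlib

/-! Row 207, block B (end).  The class `SJ n I U w`: every iterated spatial directional derivative
of `w : ℝ → E → V` exists on `I × U` and is jointly `C^n` there.  Closure properties. -/

set_option autoImplicit false
set_option linter.unusedSectionVars false
open Set Filter Topology
open scoped ContDiff

noncomputable section
namespace Crest.Agent.N207.X

universe u

variable {E : Type*} [NormedAddCommGroup E] [NormedSpace ℝ E]
variable {V : Type*} [NormedAddCommGroup V] [NormedSpace ℝ V]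
variable {V' : Type*} [NormedAddCommGroup V'] [NormedSpace ℝ V']

/-- spatial directional derivative -/
def dv (v : E) (w : ℝ → E → V) : ℝ → E → V := fun t y => fderiv ℝ (w t) y v

/-- iterated spatial directional derivative (the head of the list is applied first) -/
def dl : List E → (ℝ → E → V) → ℝ → E → V
  | [], w => w
  | v :: l, w => dl l (dv v w)

/-- jointly `C^n` and differentiable in space -/
structure Base (n : ℕ) (I : Set ℝ) (U : Set E) (w : ℝ → E → V) : Prop where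
  cd : ContDiffOn ℝ n (fun p : ℝ × E => w p.1 p.2) (I ×ˢ U)
  df : ∀ t ∈ I, ∀ y ∈ U, DifferentiableAt ℝ (w t) y

/-- all spatial jets exist and are jointly `C^n` -/
def SJ (n : ℕ) (I : Set ℝ) (U : Set E) (w : ℝ → E → V) : Prop := ∀ l : List E, Base n I U (dl l w)

/-- equality on `I × U` -/
def EqI (I : Set ℝ) (U : Set E) (w w' : ℝ → E → V) : Prop := ∀ t ∈ I, ∀ y ∈ U, w t y = w' t y

variable {n : ℕ} {I : Set ℝ} {U : Set E}

theorem EqI.refl (w : ℝ → E → V) : EqI I U w w := fun _ _ _ _ => rfl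

theorem EqI.symm {w w' : ℝ → E → V} (h : EqI I U w w') : EqI I U w' w :=
  fun t ht y hy => (h t ht y hy).symm

theorem EqI.trans {w w' w'' : ℝ → E → V} (h : EqI I U w w') (h' : EqI I U w' w'') :
    EqI I U w w'' := fun t ht y hy => (h t ht y hy).trans (h' t ht y hy)

theorem EqI.ev {w w' : ℝ → E → V} (hU : IsOpen U) (h : EqI I U w w') {t : ℝ} (ht : t ∈ I)
    {y : E} (hy : y ∈ U) : w t =ᶠ[𝓝 y] w' t :=
  Filter.eventuallyEq_of_mem (hU.mem_nhds hy) fun z hz => h t ht z hz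

theorem EqI.fderiv {w w' : ℝ → E → V} (hU : IsOpen U) (h : EqI I U w w') :
    EqI I U (fun t y => fderiv ℝ (w t) y) (fun t y => fderiv ℝ (w' t) y) :=
  fun _ ht _ hy => (h.ev hU ht hy).fderiv_eq

theorem EqI.dv {w w' : ℝ → E → V} (hU : IsOpen U) (h : EqI I U w w') (v : E) :
    EqI I U (dv v w) (dv v w') := fun t ht y hy => by
  simp only [X.dv, (h.ev hU ht hy).fderiv_eq]

theorem EqI.dl {w w' : ℝ → E → V} (hU : IsOpen U) (h : EqI I U w w') (l : List E) :
    EqI I U (dl l w) (dl l w') := by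
  induction l generalizing w w' with
  | nil => exact h
  | cons v l ih => exact ih (h.dv hU v)

theorem Base.congr {w w' : ℝ → E → V} (hU : IsOpen U) (h : Base n I U w) (e : EqI I U w' w) :
    Base n I U w' :=
  ⟨h.cd.congr fun p hp => e p.1 hp.1 p.2 hp.2,
    fun t ht y hy => (h.df t ht y hy).congr_of_eventuallyEq (e.ev hU ht hy)⟩

theorem SJ.base {w : ℝ → E → V} (h : SJ n I U w) : Base n I U w := h []

theorem SJ.cd {w : ℝ → E → V} (h : SJ n I U w) :
    ContDiffOn ℝ n (fun p : ℝ × E => w p.1 p.2) (I ×ˢ U) := h.base.cd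

theorem SJ.df {w : ℝ → E → V} (h : SJ n I U w) {t : ℝ} (ht : t ∈ I) {y : E} (hy : y ∈ U) :
    DifferentiableAt ℝ (w t) y := h.base.df t ht y hy

theorem SJ.cont {w : ℝ → E → V} (h : SJ n I U w) :
    ContinuousOn (fun p : ℝ × E => w p.1 p.2) (I ×ˢ U) := h.cd.continuousOn

theorem SJ.dv {w : ℝ → E → V} (h : SJ n I U w) (v : E) : SJ n I U (dv v w) :=
  fun l => h (v :: l)

theorem SJ.dl {w : ℝ → E → V} (h : SJ n I U w) (l : List E) : SJ n I U (dl l w) := by
  induction l generalizing w with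
  | nil => exact h
  | cons v l ih => exact ih (h.dv v)

/-- coinduction principle -/
theorem SJ.of_coind (P : (ℝ → E → V) → Prop)
    (hP : ∀ w, P w → Base n I U w ∧ ∀ v, P (X.dv v w)) {w : ℝ → E → V} (h : P w) :
    SJ n I U w := by
  intro l
  induction l generalizing w with
  | nil => exact (hP w h).1
  | cons v l ih => exact ih ((hP w h).2 v)

theorem SJ.congr {w w' : ℝ → E → V} (hU : IsOpen U) (h : SJ n I U w) (e : EqI I U w' w) :
    SJ n I U w' := fun l => (h l).congr hU (e.dl hU l)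

theorem SJ.mono {w : ℝ → E → V} {I' : Set ℝ} {U' : Set E} (h : SJ n I U w) (hI : I' ⊆ I)
    (hU : U' ⊆ U) : SJ n I' U' w := fun l =>
  ⟨(h l).cd.mono (prod_mono hI hU), fun t ht y hy => (h l).df t (hI ht) y (hU hy)⟩

theorem SJ.of_le {w : ℝ → E → V} {m : ℕ} (h : SJ n I U w) (hm : m ≤ n) : SJ m I U w := fun l =>
  ⟨(h l).cd.of_le (by exact_mod_cast hm), (h l).df⟩

theorem SJ.prod (hU : IsOpen U) {w : ℝ → E → V} {w' : ℝ → E → V'} (h : SJ n I U w)
    (h' : SJ n I U w') : SJ n I U (fun t y => (w t y, w' t y)) := by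
  refine SJ.of_coind (fun f => ∃ (w : ℝ → E → V) (w' : ℝ → E → V'), SJ n I U w ∧ SJ n I U w' ∧
    EqI I U f (fun t y => (w t y, w' t y))) ?_ ⟨w, w', h, h', EqI.refl _⟩
  rintro f ⟨w, w', h, h', e⟩
  refine ⟨Base.congr hU ⟨h.cd.prodMk h'.cd, fun t ht y hy => (h.df ht hy).prodMk (h'.df ht hy)⟩ e,
    fun v => ⟨X.dv v w, X.dv v w', h.dv v, h'.dv v, (e.dv hU v).trans fun t ht y hy => ?_⟩⟩
  simp only [X.dv]
  rw [((h.df ht hy).hasFDerivAt.prodMk (h'.df ht hy).hasFDerivAt).fderiv]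
  rfl

theorem hasFDerivAt_comp_slice {W : Type*} [NormedAddCommGroup W] [NormedSpace ℝ W]
    {O : Set W} (hO : IsOpen O) {F : ℝ × W → V} (hF : ContDiffOn ℝ ∞ F (I ×ˢ O))
    {w : E → W} {y : E} (hw : DifferentiableAt ℝ w y) (hy : w y ∈ O) {t : ℝ} (ht : t ∈ I) :
    HasFDerivAt (fun z => F (t, w z))
      ((fderivWithin ℝ F (I ×ˢ O) (t, w y)).comp
        ((0 : E →L[ℝ] ℝ).prod (fderiv ℝ w y))) y := by
  have h1 : HasFDerivWithinAt F (fderivWithin ℝ F (I ×ˢ O) (t, w y)) (I ×ˢ O) (t, w y) :=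
    ((hF.differentiableOn (by simp)) _ ⟨ht, hy⟩).hasFDerivWithinAt
  have h2 : HasFDerivAt (fun z => (t, w z)) ((0 : E →L[ℝ] ℝ).prod (fderiv ℝ w y)) y :=
    (hasFDerivAt_const t y).prodMk hw.hasFDerivAt
  have h3 : (fun z => (t, w z)) ⁻¹' (I ×ˢ O) ∈ 𝓝 y := by
    filter_upwards [hw.continuousAt.preimage_mem_nhds (hO.mem_nhds hy)] with z hz
    exact ⟨ht, hz⟩
  exact (h1.comp y (h2.hasFDerivWithinAt (s := (fun z => (t, w z)) ⁻¹' (I ×ˢ O)))
    (fun z hz => hz)).hasFDerivAt h3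

/-- closure under composition with a smooth time-dependent map -/
theorem SJ.comp (hI : UniqueDiffOn ℝ I) (hU : IsOpen U) {W : Type u} [NormedAddCommGroup W]
    [NormedSpace ℝ W] {O : Set W} (hO : IsOpen O) {F : ℝ × W → V}
    (hF : ContDiffOn ℝ ∞ F (I ×ˢ O)) {w : ℝ → E → W} (h : SJ n I U w)
    (hw : ∀ t ∈ I, ∀ y ∈ U, w t y ∈ O) : SJ n I U (fun t y => F (t, w t y)) := by
  refine SJ.of_coind (fun f => ∃ (W : Type u) (_ : NormedAddCommGroup W) (_ : NormedSpace ℝ W)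
    (O : Set W) (F : ℝ × W → V) (w : ℝ → E → W), IsOpen O ∧ ContDiffOn ℝ ∞ F (I ×ˢ O) ∧
    SJ n I U w ∧ (∀ t ∈ I, ∀ y ∈ U, w t y ∈ O) ∧ EqI I U f (fun t y => F (t, w t y))) ?_
    ⟨W, inferInstance, inferInstance, O, F, w, hO, hF, h, hw, EqI.refl _⟩
  rintro f ⟨W, _, _, O, F, w, hO, hF, h, hw, e⟩
  refine ⟨Base.congr hU ⟨?_, fun t ht y hy => ?_⟩ e, fun v => ?_⟩
  · exact (hF.of_le (by exact_mod_cast le_top)).comp (contDiffOn_fst.prodMk h.cd)
      fun p hp => ⟨hp.1, hw _ hp.1 _ hp.2⟩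
  · exact (hasFDerivAt_comp_slice hO hF (h.df ht hy) (hw t ht y hy) ht).differentiableAt
  · refine ⟨W × W, inferInstance, inferInstance, O ×ˢ univ,
      fun q => fderivWithin ℝ F (I ×ˢ O) (q.1, q.2.1) (0, q.2.2),
      fun t y => (w t y, X.dv v w t y), hO.prod isOpen_univ, ?_, h.prod hU (h.dv v),
      fun t ht y hy => ⟨hw t ht y hy, mem_univ _⟩, (e.dv hU v).trans fun t ht y hy => ?_⟩
    · have h1 : ContDiffOn ℝ ∞ (fderivWithin ℝ F (I ×ˢ O)) (I ×ˢ O) :=
        hF.fderivWithin (hI.prod hO.uniqueDiffOn) (by simp)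
      refine ContDiffOn.clm_apply (h1.comp (contDiffOn_fst.prodMk (contDiffOn_snd.fst)) ?_)
        (contDiffOn_const.prodMk contDiffOn_snd.snd)
      exact fun q hq => ⟨hq.1, hq.2.1⟩
    · simp only [X.dv]
      rw [(hasFDerivAt_comp_slice hO hF (h.df ht hy) (hw t ht y hy) ht).fderiv]
      rfl

theorem SJ.const (c : V) : SJ n I U (fun _ _ => c) := by
  refine SJ.of_coind (fun f => ∃ c : V, f = fun _ _ => c) ?_ ⟨c, rfl⟩
  rintro f ⟨c, rfl⟩
  refine ⟨⟨contDiffOn_const, fun _ _ _ _ => differentiableAt_const _⟩, fun v => ⟨0, ?_⟩⟩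
  funext t y
  simp [X.dv]

theorem SJ.id : SJ n I U (fun _ y => y) := by
  intro l
  cases l with
  | nil => exact ⟨contDiffOn_snd, fun _ _ _ _ => differentiableAt_id⟩
  | cons v l =>
    have : X.dv v (fun (_ : ℝ) (y : E) => y) = fun _ _ => v := by
      funext t y
      simp [X.dv]
    show Base n I U (X.dl l (X.dv v _))
    rw [this]
    exact SJ.const v l

/-- a jointly smooth function has jointly smooth jets -/
theorem SJ.of_contDiffOn (hI : UniqueDiffOn ℝ I) (hU : IsOpen U) {w : ℝ → E → V}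
    (h : ContDiffOn ℝ ∞ (fun p : ℝ × E => w p.1 p.2) (I ×ˢ U)) : SJ n I U w :=
  SJ.comp hI hU hU h SJ.id fun _ _ _ hy => hy

/-- composition with a smooth map defined on an open set -/
theorem SJ.comp' (hI : UniqueDiffOn ℝ I) (hU : IsOpen U) {O : Set V'} (hO : IsOpen O)
    {F : V' → V} (hF : ContDiffOn ℝ ∞ F O) {w : ℝ → E → V'} (h : SJ n I U w)
    (hw : ∀ t ∈ I, ∀ y ∈ U, w t y ∈ O) : SJ n I U (fun t y => F (w t y)) :=
  SJ.comp hI hU hO (F := fun q => F q.2) (hF.comp contDiffOn_snd fun _ hq => hq.2) h hw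

theorem SJ.comp₁ (hI : UniqueDiffOn ℝ I) (hU : IsOpen U) {F : V' → V} (hF : ContDiff ℝ ∞ F)
    {w : ℝ → E → V'} (h : SJ n I U w) : SJ n I U (fun t y => F (w t y)) :=
  SJ.comp' hI hU isOpen_univ hF.contDiffOn h fun _ _ _ _ => mem_univ _

theorem SJ.clm (hI : UniqueDiffOn ℝ I) (hU : IsOpen U) (L : V' →L[ℝ] V)
    {w : ℝ → E → V'} (h : SJ n I U w) : SJ n I U (fun t y => L (w t y)) :=
  SJ.comp₁ hI hU L.contDiff h

theorem SJ.add (hI : UniqueDiffOn ℝ I) (hU : IsOpen U) {w w' : ℝ → E → V} (h : SJ n I U w)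
    (h' : SJ n I U w') : SJ n I U (fun t y => w t y + w' t y) :=
  SJ.comp₁ hI hU (F := fun q : V × V => q.1 + q.2) (by fun_prop) (h.prod hU h')

theorem SJ.sub (hI : UniqueDiffOn ℝ I) (hU : IsOpen U) {w w' : ℝ → E → V} (h : SJ n I U w)
    (h' : SJ n I U w') : SJ n I U (fun t y => w t y - w' t y) :=
  SJ.comp₁ hI hU (F := fun q : V × V => q.1 - q.2) (by fun_prop) (h.prod hU h')

theorem SJ.neg (hI : UniqueDiffOn ℝ I) (hU : IsOpen U) {w : ℝ → E → V} (h : SJ n I U w) :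
    SJ n I U (fun t y => -w t y) :=
  SJ.comp₁ hI hU (F := fun q : V => -q) (by fun_prop) h

theorem SJ.smul (hI : UniqueDiffOn ℝ I) (hU : IsOpen U) {c : ℝ → E → ℝ} {w : ℝ → E → V}
    (h : SJ n I U c) (h' : SJ n I U w) : SJ n I U (fun t y => c t y • w t y) :=
  SJ.comp₁ hI hU (F := fun q : ℝ × V => q.1 • q.2) (by fun_prop) (h.prod hU h')

theorem SJ.mul (hI : UniqueDiffOn ℝ I) (hU : IsOpen U) {w w' : ℝ → E → ℝ}
    (h : SJ n I U w) (h' : SJ n I U w') : SJ n I U (fun t y => w t y * w' t y) :=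
  SJ.smul hI hU h h'

theorem SJ.inv (hI : UniqueDiffOn ℝ I) (hU : IsOpen U) {w : ℝ → E → ℝ}
    (h : SJ n I U w) (h0 : ∀ t ∈ I, ∀ y ∈ U, w t y ≠ 0) : SJ n I U (fun t y => (w t y)⁻¹) :=
  SJ.comp' hI hU (O := {0}ᶜ) isOpen_compl_singleton (F := fun x : ℝ => x⁻¹)
    (contDiffOn_inv ℝ) h h0

theorem SJ.sum (hI : UniqueDiffOn ℝ I) (hU : IsOpen U) {ι : Type*} (s : Finset ι)
    {w : ι → ℝ → E → V} (h : ∀ i ∈ s, SJ n I U (w i)) :
    SJ n I U (fun t y => ∑ i ∈ s, w i t y) := by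
  classical
  induction s using Finset.induction_on with
  | empty => simpa using SJ.const (0 : V)
  | insert a s ha ih =>
    simp only [Finset.sum_insert ha]
    exact (h a (by simp)).add hI hU (ih fun i hi => h i (by simp [hi]))

theorem SJ.finset_prod (hI : UniqueDiffOn ℝ I) (hU : IsOpen U) {ι : Type*} (s : Finset ι)
    {w : ι → ℝ → E → ℝ} (h : ∀ i ∈ s, SJ n I U (w i)) :
    SJ n I U (fun t y => ∏ i ∈ s, w i t y) := by
  classical
  induction s using Finset.induction_on with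
  | empty => simpa using SJ.const (1 : ℝ)
  | insert a s ha ih =>
    simp only [Finset.prod_insert ha]
    exact (h a (by simp)).mul hI hU (ih fun i hi => h i (by simp [hi]))

theorem SJ.pi (hI : UniqueDiffOn ℝ I) (hU : IsOpen U) {ι : Type*} [Fintype ι]
    {w : ι → ℝ → E → V} (h : ∀ i, SJ n I U (w i)) : SJ n I U (fun t y i => w i t y) := by
  classical
  refine (SJ.sum hI hU Finset.univ fun i _ =>
    (h i).clm hI hU (ContinuousLinearMap.single ℝ (fun _ : ι => V) i)).congr hU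
    fun t _ y _ => ?_
  ext j
  simp [Finset.sum_apply, Pi.single_apply]

theorem fderiv_eq_sum [FiniteDimensional ℝ E] (L : E →L[ℝ] V) :
    L = ∑ i, ContinuousLinearMap.smulRightL ℝ E V
      (LinearMap.toContinuousLinearMap ((Module.finBasis ℝ E).coord i))
        (L (Module.finBasis ℝ E i)) := by
  ext v
  have h : L v = L (∑ i, (Module.finBasis ℝ E).repr v i • Module.finBasis ℝ E i) := by
    rw [(Module.finBasis ℝ E).sum_repr v]
  rw [h, map_sum]
  simp

/-- the full spatial derivative -/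
theorem SJ.fderiv [FiniteDimensional ℝ E] (hI : UniqueDiffOn ℝ I) (hU : IsOpen U)
    {w : ℝ → E → V} (h : SJ n I U w) : SJ n I U (fun t y => fderiv ℝ (w t) y) :=
  (SJ.sum hI hU Finset.univ fun i _ => (h.dv (Module.finBasis ℝ E i)).clm hI hU
    (ContinuousLinearMap.smulRightL ℝ E V
      (LinearMap.toContinuousLinearMap ((Module.finBasis ℝ E).coord i)))).congr hU
    fun _ _ _ _ => fderiv_eq_sum _

/-- the hypothesis in terms of `iteratedFDeriv` -/
theorem SJ.of_iteratedFDeriv (hU : IsOpen U) {u : ℝ → E → V}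
    (h1 : ∀ t ∈ I, ContDiffOn ℝ ∞ (u t) U)
    (h2 : ∀ k, ContinuousOn (fun p : ℝ × E => iteratedFDeriv ℝ k (u p.1) p.2) (I ×ˢ U)) :
    SJ 0 I U u := by
  have hd : ∀ k, ∀ t ∈ I, ∀ y ∈ U, DifferentiableAt ℝ (iteratedFDeriv ℝ k (u t)) y := by
    intro k t ht y hy
    exact ((h1 t ht).contDiffAt (hU.mem_nhds hy)).differentiableAt_iteratedFDeriv
      (by exact_mod_cast ENat.coe_lt_top k)
  refine SJ.of_coind (fun f => ∃ (k : ℕ) (L : (E [×k]→L[ℝ] V) →L[ℝ] V),
    EqI I U f (fun t y => L (iteratedFDeriv ℝ k (u t) y))) ?_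
    ⟨0, (continuousMultilinearCurryFin0 ℝ E V).toContinuousLinearEquiv, fun t _ y _ => by simp⟩
  rintro f ⟨k, L, e⟩
  refine ⟨Base.congr hU ⟨?_, fun t ht y hy => L.differentiableAt.comp y (hd k t ht y hy)⟩ e,
    fun v => ⟨k + 1, L.comp ((ContinuousLinearMap.apply ℝ (E [×k]→L[ℝ] V) v).comp
      (continuousMultilinearCurryLeftEquiv ℝ (fun _ : Fin (k + 1) => E)
        V).toContinuousLinearEquiv.toContinuousLinearMap), (e.dv hU v).trans fun t ht y hy => ?_⟩⟩
  · exact contDiffOn_zero.2 (L.continuous.comp_continuousOn (h2 k))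
  · have h3 : HasFDerivAt (fun y => L (iteratedFDeriv ℝ k (u t) y)) _ y :=
      L.hasFDerivAt.comp y (hd k t ht y hy).hasFDerivAt
    simp only [X.dv]
    rw [h3.fderiv, fderiv_iteratedFDeriv]
    rfl

end Crest.Agent.N207.X
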