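import Crest.Agent.N207.X.Ric
import Crest.Agent.N207.X.JS
import Crest.Agent.N207.X.Bar

/-! Row 207, block B (end).  (LIM): a coordinate Ricci flow on `[a, T)` with bounded `∇ʲ Rm` has
uniformly bounded spatial jets, Lipschitz in time, and stays uniformly positive. -/

set_option autoImplicit false
set_option linter.unusedSectionVars false
open Set Filter Topology
open scoped ContDiff
open Crest.GeometryTopology.CoordMetric Crest.GeometryTopology.ChartCurvature
  Crest.GeometryTopology.MetricFamily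
open Crest.Agent.R202.Tens Crest.Agent.R247.Bo84 Crest.Agent.N207.AI

noncomputable section
namespace Crest.Agent.N207.X

theorem equiv_of_deriv {a T κ : ℝ} {q q' : ℝ → ℝ} (hκ : 0 ≤ κ) (hq : ∀ t ∈ Ico a T, 0 < q t)
    (hd : ∀ t ∈ Ico a T, HasDerivAt q (q' t) t) (hb : ∀ t ∈ Ico a T, |q' t| ≤ κ * q t)
    {t : ℝ} (ht : t ∈ Ico a T) :
    q t ≤ Real.exp (κ * (T - a)) * q a ∧ q a ≤ Real.exp (κ * (T - a)) * q t := by
  have ha : a ∈ Ico a T := ⟨le_rfl, ht.1.trans_lt ht.2⟩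
  have h1 := (convex_Ico a T).norm_image_sub_le_of_norm_hasDerivWithin_le
    (f := fun s => Real.log (q s)) (f' := fun s => q' s / q s) (C := κ)
    (fun s hs => ((hd s hs).log (hq s hs).ne').hasDerivWithinAt)
    (fun s hs => by
      rw [Real.norm_eq_abs, abs_div, abs_of_pos (hq s hs), div_le_iff₀ (hq s hs)]
      exact hb s hs) ha ht
  rw [Real.norm_eq_abs, Real.norm_eq_abs, abs_of_nonneg (sub_nonneg.2 ht.1)] at h1
  have h2 : κ * (t - a) ≤ κ * (T - a) := mul_le_mul_of_nonneg_left (by linarith [ht.2]) hκ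
  obtain ⟨h3, h4⟩ := abs_le.1 h1
  constructor
  · rw [← Real.exp_log (hq t ht), ← Real.exp_log (hq a ha), ← Real.exp_add]
    exact Real.exp_le_exp.2 (by linarith)
  · rw [← Real.exp_log (hq t ht), ← Real.exp_log (hq a ha), ← Real.exp_add]
    exact Real.exp_le_exp.2 (by linarith)

theorem exists_unif {ι α : Type*} [Finite ι] {P : α → Prop} {f : ι → α → ℝ} {φ : α → ℝ}
    (hφ : ∀ x, P x → 0 ≤ φ x) (h : ∀ i, ∃ C, ∀ x, P x → f i x ≤ C * φ x) :
    ∃ C, 0 ≤ C ∧ ∀ i x, P x → f i x ≤ C * φ x := by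
  choose C hC using h
  obtain ⟨D, hD⟩ := (Set.finite_range C).bddAbove
  exact ⟨max D 0, le_max_right _ _, fun i x hx => (hC i x hx).trans
    (mul_le_mul_of_nonneg_right ((hD ⟨i, rfl⟩).trans (le_max_left _ _)) (hφ x hx))⟩

variable {n : ℕ}

/-- hypotheses of (LIM) -/
structure LimHyp (G : ℝ → MetricField n) (a T : ℝ) (U : Set (En n)) : Prop where
  lt : a < T
  op : IsOpen U
  sm : ∀ i j, ContDiffOn ℝ ∞ (fun p : ℝ × En n => G p.1 p.2 i j) (Ico a T ×ˢ U)
  pos : ∀ t ∈ Ico a T, ∀ y ∈ U, (G t y).PosDef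
  rf : ∀ t ∈ Ico a T, ∀ y ∈ U, ∀ i j,
    HasDerivAt (fun s => G s y i j) (-2 * ricci (G t) y i j) t
  shi : ∀ j, ∃ C, ∀ t ∈ Ico a T, ∀ y ∈ U, nsq (G t) (covN (G t) (rmT (G t)) j) y ≤ C

/-- bounds at the initial time -/
structure IniBd (G : ℝ → MetricField n) (a : ℝ) (U : Set (En n)) : Prop where
  jets : ∀ l i j, ∃ C, ∀ y ∈ U, |dl l (fun t y => G t y i j) a y| ≤ C
  low : ∃ c > 0, ∀ y ∈ U, ∀ v : En n, c * ‖v‖ ^ 2 ≤ bil (G a y) v v
  up : ∃ Λ, ∀ y ∈ U, ∀ v : En n, bil (G a y) v v ≤ Λ * ‖v‖ ^ 2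

variable {G : ℝ → MetricField n} {a T : ℝ} {U : Set (En n)}

namespace LimHyp

theorem mono (h : LimHyp G a T U) {V : Set (En n)} (hV : IsOpen V) (hs : V ⊆ U) :
    LimHyp G a T V :=
  ⟨h.lt, hV, fun i j => (h.sm i j).mono (prod_mono Subset.rfl hs),
    fun t ht y hy => h.pos t ht y (hs hy), fun t ht y hy => h.rf t ht y (hs hy),
    fun j => (h.shi j).imp fun _ hC t ht y hy => hC t ht y (hs hy)⟩

theorem sj (h : LimHyp G a T U) (i j : Fin n) : SJ 0 (Ico a T) U fun t y => G t y i j :=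
  SJ.of_contDiffOn (uniqueDiffOn_Ico a T) h.op (h.sm i j)

theorem riem (h : LimHyp G a T U) (t : ℝ) (ht : t ∈ Ico a T) : IsRiemannianOn (G t) U :=
  ⟨h.op, fun i j => (h.sj i j).slice h.op ht, h.pos t ht⟩

theorem det_ne (h : LimHyp G a T U) : ∀ t ∈ Ico a T, ∀ y ∈ U, (G t y).det ≠ 0 :=
  fun t ht y hy => (h.pos t ht y hy).det_pos.ne'

theorem ev (h : LimHyp G a T U) (i j : Fin n) (l : List (En n)) :
    Ev (Ico a T) U (dl l fun t y => G t y i j) (dl l fun t y => -2 * ricci (G t) y i j) := by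
  intro t ht y hy
  have hb : (t + T) / 2 < T := by linarith [ht.2]
  have hb' : t < (t + T) / 2 := by linarith [ht.2]
  have hs : Icc a ((t + T) / 2) ⊆ Ico a T := Icc_subset_Ico_right hb
  have hab : a < (t + T) / 2 := ht.1.trans_lt hb'
  have h1 : Ev (Icc a ((t + T) / 2)) U (fun t y => G t y i j)
      (fun t y => -2 * ricci (G t) y i j) :=
    fun s hs' z hz => (h.rf s (hs hs') z hz i j).hasDerivWithinAt
  have h2 := h1.dl hab h.op (fun l s hs' z hz => (h.sj i j l).df s (hs hs') z hz)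
    (((SJ.ricci (uniqueDiffOn_Ico a T) h.op h.sj h.det_ne i j).cmul (uniqueDiffOn_Ico a T)
      h.op _).mono hs Subset.rfl) l t ⟨ht.1, hb'.le⟩ y hy
  refine h2.mono_of_mem_nhdsWithin ?_
  filter_upwards [self_mem_nhdsWithin, mem_nhdsWithin_of_mem_nhds (Iio_mem_nhds hb')] with s h3 h4
  exact ⟨h3.1, le_of_lt h4⟩

/-- uniform equivalence of the metrics -/
theorem equiv (h : LimHyp G a T U) : ∃ A > 0, ∀ t ∈ Ico a T, ∀ y ∈ U, ∀ v : En n,
    bil (G t y) v v ≤ A * bil (G a y) v v ∧ bil (G a y) v v ≤ A * bil (G t y) v v := by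
  obtain ⟨C, hC⟩ := h.shi 0
  refine ⟨Real.exp (2 * (n * √C) * (T - a)), Real.exp_pos _, fun t ht y hy v => ?_⟩
  by_cases hv : v = 0
  · simp [hv]
  refine equiv_of_deriv (q := fun s => bil (G s y) v v)
    (q' := fun s => -2 * ∑ i, ∑ j, ricci (G s) y i j * v i * v j) (by positivity)
    (fun s hs => ?_) (fun s hs => ?_) (fun s hs => ?_) ht
  · have hv' : (WithLp.ofLp v : Fin n → ℝ) ≠ 0 := fun e => hv (by ext i; simpa using congrFun e i)
    have h1 := (h.pos s hs y hy).dotProduct_mulVec_pos hv'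
    rw [bil_apply]
    refine h1.trans_eq ?_
    simp only [dotProduct, Matrix.mulVec, Pi.star_apply, star_trivial, Finset.mul_sum]
    exact Finset.sum_congr rfl fun i _ => Finset.sum_congr rfl fun j _ => by ring
  · simp only [bil_apply, Finset.mul_sum]
    refine HasDerivAt.fun_sum fun i _ => HasDerivAt.fun_sum fun j _ => ?_
    exact (((h.rf s hs y hy i j).mul_const (v i)).mul_const (v j)).congr_deriv (by ring)
  · rw [abs_mul, mul_assoc 2, abs_neg, abs_two]
    exact mul_le_mul_of_nonneg_left (abs_ric_le (h.riem s hs) hy (hC s hs y hy) v) zero_le_two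

theorem low (h : LimHyp G a T U) (h0 : IniBd G a U) :
    ∃ c > 0, ∀ t ∈ Ico a T, ∀ y ∈ U, ∀ v : En n, c * ‖v‖ ^ 2 ≤ bil (G t y) v v := by
  obtain ⟨A, hA, h1⟩ := h.equiv
  obtain ⟨c, hc, h2⟩ := h0.low
  refine ⟨c / A, by positivity, fun t ht y hy v => ?_⟩
  rw [div_mul_eq_mul_div, div_le_iff₀ hA, mul_comm _ A]
  exact (h2 y hy v).trans (h1 t ht y hy v).2

theorem bd_G (h : LimHyp G a T U) (h0 : IniBd G a U) :
    ∃ Λ, ∀ t ∈ Ico a T, ∀ y ∈ U, ∀ i j, |G t y i j| ≤ Λ := by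
  obtain ⟨A, hA, h1⟩ := h.equiv
  obtain ⟨Λ, h2⟩ := h0.up
  refine ⟨A * Λ, fun t ht y hy => abs_entry_le (h.riem t ht) hy fun v => ?_⟩
  rw [mul_assoc]
  exact (h1 t ht y hy v).1.trans (mul_le_mul_of_nonneg_left (h2 y hy v) hA.le)

theorem bd_inv (h : LimHyp G a T U) (h0 : IniBd G a U) (i j : Fin n) :
    Bd (Ico a T) U fun t y => (G t y)⁻¹ i j := by
  obtain ⟨c, hc, h1⟩ := h.low h0
  exact ⟨n / c, fun t ht y hy => abs_inv_entry_le (h.riem t ht) hy hc (h1 t ht y hy) i j⟩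

theorem bd_tw (h : LimHyp G a T U) (h0 : IniBd G a U) (j : ℕ) (J : Fin (4 + j) → Fin n) :
    Bd (Ico a T) U (tw G j J) := by
  obtain ⟨Λ, hΛ⟩ := h.bd_G h0
  obtain ⟨C, hC⟩ := h.shi j
  refine ⟨√(|C| * |Λ| ^ (4 + j)), fun t ht y hy => Real.abs_le_sqrt ?_⟩
  refine (comp_sq_le (h.riem t ht) hy _ J).trans ((le_abs_self _).trans ?_)
  rw [abs_mul, Finset.abs_prod]
  have h1 : 0 ≤ nsq (G t) (covN (G t) (rmT (G t)) j) y := by
    obtain ⟨e, he⟩ := exists_frame (h.riem t ht) hy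
    rw [nsq, ip, ipA_frame he.inv]
    exact Finset.sum_nonneg fun a _ => mul_self_nonneg _
  refine mul_le_mul ((abs_of_nonneg h1).trans_le ((hC t ht y hy).trans (le_abs_self _))) ?_
    (Finset.prod_nonneg fun _ _ => abs_nonneg _) (abs_nonneg _)
  refine (Finset.prod_le_prod (fun _ _ => abs_nonneg _) fun s _ =>
    (hΛ t ht y hy _ _).trans (le_abs_self Λ)).trans_eq (by simp)

/-- the derivatives of order `k` -/
def jv (G : ℝ → MetricField n) (k : ℕ) (t : ℝ) (y : En n) :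
    List.Vector (Fin n) k × Fin n × Fin n → ℝ :=
  fun q => dl (q.1.1.map eb) (fun t y => G t y q.2.1 q.2.2) t y

theorem gronwall (h : LimHyp G a T U) (h0 : IniBd G a U) (k : ℕ)
    (hK : ∀ i j, K eb (Ico a T) U (fun t y => 1 + ‖jv G k t y‖) k
      fun t y => -2 * ricci (G t) y i j) : Bd (Ico a T) U fun t y => 1 + ‖jv G k t y‖ := by
  obtain ⟨C, hC0, hC⟩ := exists_unif (ι := List.Vector (Fin n) k × Fin n × Fin n)
    (P := fun p : ℝ × En n => p.1 ∈ Ico a T ∧ p.2 ∈ U)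
    (f := fun q p => |dl (q.1.1.map eb) (fun t y => -2 * ricci (G t) y q.2.1 q.2.2) p.1 p.2|)
    (φ := fun p => 1 + ‖jv G k p.1 p.2‖) (fun _ _ => by positivity) fun q =>
      ((hK q.2.1 q.2.2).dl_le q.1.1 q.1.2).imp fun _ hC p hp => hC p.1 hp.1 p.2 hp.2
  obtain ⟨δ, hδ0, hδ⟩ := exists_unif (ι := List.Vector (Fin n) k × Fin n × Fin n)
    (P := fun y : En n => y ∈ U) (f := fun q y => |jv G k a y q|) (φ := fun _ => 1)
    (fun _ _ => zero_le_one) fun q =>
      (h0.jets (q.1.1.map eb) q.2.1 q.2.2).imp fun _ hC y hy => by simpa [jv] using hC y hy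
  refine ⟨1 + gronwallBound δ C C (T - a), fun t ht y hy => ?_⟩
  rw [abs_of_nonneg (by positivity)]
  have hs : Icc a t ⊆ Ico a T := Icc_subset_Ico_right ht.2
  have hd : ∀ s ∈ Ico a T, HasDerivWithinAt (fun s => jv G k s y)
      (fun q => dl (q.1.1.map eb) (fun t y => -2 * ricci (G t) y q.2.1 q.2.2) s y) (Ico a T) s :=
    fun s hs => hasDerivWithinAt_pi.2 fun q => h.ev q.2.1 q.2.2 _ s hs y hy
  have h1 := norm_le_gronwallBound_of_norm_deriv_right_le (δ := δ) (K := C) (ε := C)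
    (fun s hs' => ((hd s (hs hs')).continuousWithinAt).mono hs)
    (fun s hs' => (hd s (hs (Ico_subset_Icc_self hs'))).mono_of_mem_nhdsWithin
      (Ico_mem_nhdsGE_of_mem (hs (Ico_subset_Icc_self hs'))))
    ((pi_norm_le_iff_of_nonneg hδ0).2 fun q => by simpa using hδ q y hy)
    (fun s hs' => (pi_norm_le_iff_of_nonneg (by positivity)).2 fun q =>
      (hC q (s, y) ⟨hs (Ico_subset_Icc_self hs'), hy⟩).trans_eq (by ring)) t ⟨ht.1, le_rfl⟩
  exact add_le_add le_rfl (h1.trans (gronwallBound_mono hδ0 hC0 hC0 (by linarith [ht.2])))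

theorem step (h : LimHyp G a T U) (h0 : IniBd G a U) {k : ℕ} {φ : ℝ → En n → ℝ}
    (hφ : Ge (Ico a T) U φ) (hG : ∀ i j, K eb (Ico a T) U φ (k + 1) fun t y => G t y i j)
    (hT : ∀ j J, K eb (Ico a T) U one k (tw G j J)) :
    (∀ j J, K eb (Ico a T) U φ (k + 1) (tw G j J)) ∧
      ∀ i j, K eb (Ico a T) U φ (k + 1) fun t y => -2 * ricci (G t) y i j := by
  have hH := K.matInv h.op hφ hG h.det_ne (h.bd_inv h0)
  have h1 := K.tw h.op hφ h.riem (K.chr h.op hφ hG hH) hT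
  exact ⟨h1, K.ricci h.op hφ h.riem hH (h1 0)⟩

theorem all (h : LimHyp G a T U) (h0 : IniBd G a U) (k : ℕ) :
    (∀ i j, K eb (Ico a T) U one k fun t y => G t y i j) ∧
      ∀ j J, K eb (Ico a T) U one k (tw G j J) := by
  induction k with
  | zero =>
    obtain ⟨Λ, hΛ⟩ := h.bd_G h0
    exact ⟨fun i j => K.zero_one.2 ⟨Λ, fun t ht y hy => hΛ t ht y hy i j⟩,
      fun j J => K.zero_one.2 (h.bd_tw h0 j J)⟩
  | succ k ih =>
    have hφ : Ge (Ico a T) U fun t y => 1 + ‖jv G (k + 1) t y‖ :=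
      fun t _ y _ => le_add_of_nonneg_right (norm_nonneg _)
    have hG : ∀ i j, K eb (Ico a T) U (fun t y => 1 + ‖jv G (k + 1) t y‖) (k + 1)
        fun t y => G t y i j := fun i j => (ih.1 i j).top (fun l => (h.sj i j l).df)
      fun l hl t _ y _ => (norm_le_pi_norm (jv G (k + 1) t y) (⟨l, hl⟩, i, j)).trans
        (le_add_of_nonneg_left zero_le_one)
    obtain ⟨h1, h2⟩ := h.step h0 hφ hG ih.2
    have h3 := h.gronwall h0 (k + 1) h2
    exact ⟨fun i j => (hG i j).of_bdd h3, fun j J => (h1 j J).of_bdd h3⟩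

/-- **(LIM)** all jets are Lipschitz in time -/
theorem good (h : LimHyp G a T U) (h0 : IniBd G a U) (i j : Fin n) :
    Good eb (Ico a T) U fun t y => G t y i j := by
  intro l
  refine ⟨?_, (h.sj i j _).df⟩
  obtain ⟨C, hC⟩ := ((h.step h0 ge_one (h.all h0 (l.length + 1)).1
    (h.all h0 l.length).2).2 i j).drop.dl_le l rfl
  refine ⟨max C 0, le_max_right _ _, fun s hs t ht y hy => ?_⟩
  exact (convex_Ico a T).norm_image_sub_le_of_norm_hasDerivWithin_le
    (fun r hr => h.ev i j (l.map eb) r hr y hy)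
    (fun r hr => by
      have := hC r hr y hy
      simp only [one, mul_one] at this
      exact this.trans (le_max_left _ _)) hs ht

/-- the initial bounds hold near every point -/
theorem exists_iniBd (h : LimHyp G a T U) {y : En n} (hy : y ∈ U) :
    ∃ V, IsOpen V ∧ y ∈ V ∧ V ⊆ U ∧ IniBd G a V := by
  obtain ⟨ε, hε, hb⟩ := Metric.nhds_basis_closedBall.mem_iff.1 (h.op.mem_nhds hy)
  have ha : a ∈ Ico a T := ⟨le_rfl, h.lt⟩
  have hK := isCompact_closedBall y ε
  have hc : ContinuousOn (fun p : En n × En n => bil (G a p.1) p.2 p.2)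
      (Metric.closedBall y ε ×ˢ Metric.sphere 0 1) := by
    simp only [bil_apply]
    refine continuousOn_finset_sum _ fun i _ => continuousOn_finset_sum _ fun j _ => ?_
    exact ((((h.riem a ha).contDiffOn i j).continuousOn.comp continuousOn_fst
      fun p hp => hb hp.1).mul (by fun_prop)).mul (by fun_prop)
  have hsc : ∀ z (v : En n), v ≠ 0 → bil (G a z) v v =
      bil (G a z) (‖v‖⁻¹ • v) (‖v‖⁻¹ • v) * ‖v‖ ^ 2 := by
    intro z v hv
    have hn : ‖v‖ ≠ 0 := norm_ne_zero_iff.2 hv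
    simp only [map_smul, ContinuousLinearMap.smul_apply, smul_eq_mul]
    field_simp
  have hm : ∀ v : En n, v ≠ 0 → ‖v‖⁻¹ • v ∈ Metric.sphere (0 : En n) 1 := fun v hv => by
    simp [norm_smul, hv]
  refine ⟨Metric.ball y ε, Metric.isOpen_ball, Metric.mem_ball_self hε,
    Metric.ball_subset_closedBall.trans hb, fun l i j => ?_, ?_, ?_⟩
  · obtain ⟨C, hC⟩ := hK.exists_bound_of_continuousOn
      ((cont_slice' ((h.sj i j).dl l).cont ha).mono hb)
    exact ⟨C, fun z hz => hC z (Metric.ball_subset_closedBall hz)⟩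
  · obtain ⟨c, hc0, h1⟩ := (hK.prod (isCompact_sphere (0 : En n) 1)).exists_forall_le' hc
      (a := 0) fun p hp => by
        have hv : p.2 ≠ 0 := fun e => by simpa [e] using hp.2
        have hv' : (WithLp.ofLp p.2 : Fin n → ℝ) ≠ 0 :=
          fun e => hv (by ext i; simpa using congrFun e i)
        have h1 := (h.pos a ha p.1 (hb hp.1)).dotProduct_mulVec_pos hv'
        rw [bil_apply]
        refine h1.trans_eq ?_
        simp only [dotProduct, Matrix.mulVec, Pi.star_apply, star_trivial, Finset.mul_sum]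
        exact Finset.sum_congr rfl fun i _ => Finset.sum_congr rfl fun j _ => by ring
    refine ⟨c, hc0, fun z hz v => ?_⟩
    by_cases hv : v = 0
    · simp [hv]
    rw [hsc z v hv]
    exact mul_le_mul_of_nonneg_right
      (h1 (z, ‖v‖⁻¹ • v) ⟨Metric.ball_subset_closedBall hz, hm v hv⟩) (sq_nonneg _)
  · obtain ⟨C, hC⟩ := (hK.prod (isCompact_sphere (0 : En n) 1)).exists_bound_of_continuousOn hc
    refine ⟨C, fun z hz v => ?_⟩
    by_cases hv : v = 0
    · simp [hv]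
    rw [hsc z v hv]
    exact mul_le_mul_of_nonneg_right ((le_abs_self _).trans
      (hC (z, ‖v‖⁻¹ • v) ⟨Metric.ball_subset_closedBall hz, hm v hv⟩)) (sq_nonneg _)

/-- **(LIM)**, local form: jets continuous up to `T` and a uniform lower bound -/
theorem lim (h : LimHyp G a T U) {y : En n} (hy : y ∈ U) :
    ∃ V, IsOpen V ∧ y ∈ V ∧ V ⊆ U ∧
      (∀ i j, Lip (Ico a T) V fun t y => G t y i j) ∧
      (∀ i j, SJ 0 (Icc a T) V (bar T fun t y => G t y i j)) ∧
      ∃ c > 0, ∀ t ∈ Ico a T, ∀ z ∈ V, ∀ v : En n, c * ‖v‖ ^ 2 ≤ bil (G t z) v v := by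
  obtain ⟨V, hV, hyV, hs, h0⟩ := h.exists_iniBd hy
  have h1 := h.mono hV hs
  refine ⟨V, hV, hyV, hs, fun i j => (h1.good h0 i j).lip, fun i j => ?_, h1.low h0⟩
  refine Good.sj h.lt hV (EuclideanSpace.basisFun (Fin n) ℝ).toBasis ?_
  have e : ⇑(EuclideanSpace.basisFun (Fin n) ℝ).toBasis = eb := by
    funext i
    simp [eb]
  rw [e]
  exact h1.good h0 i j

end LimHyp

end Crest.Agent.N207.X
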