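import Crest.Agent.N207.X.Tame
import Crest.Agent.N207.X.Alg
import Crest.Agent.N207.AI.Nat

/-! Row 207, block B (end).  The classes `SJ` and `K` for Christoffel symbols, the Ricci tensor
and the components of `∇ʲ Rm`. -/

set_option autoImplicit false
set_option linter.unusedSectionVars false
open Set Filter Topology
open scoped ContDiff
open Crest.GeometryTopology.CoordMetric Crest.GeometryTopology.ChartCurvature
  Crest.GeometryTopology.MetricFamily
open Crest.Agent.R202.Tens Crest.Agent.R247.Bo84 Crest.Agent.N207.AI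

noncomputable section
namespace Crest.Agent.N207.X

section SJ
variable {E : Type*} [NormedAddCommGroup E] [NormedSpace ℝ E] {N : ℕ} {I : Set ℝ} {U : Set E}
variable {m : Type*} [Fintype m] [DecidableEq m] {A : ℝ → E → Matrix m m ℝ}

theorem SJ.cmul (hI : UniqueDiffOn ℝ I) (hU : IsOpen U) (c : ℝ) {w : ℝ → E → ℝ}
    (h : SJ N I U w) : SJ N I U (fun t y => c * w t y) := (SJ.const c).mul hI hU h

theorem SJ.det (hI : UniqueDiffOn ℝ I) (hU : IsOpen U)
    (h : ∀ i j, SJ N I U fun t y => A t y i j) : SJ N I U fun t y => (A t y).det := by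
  simp only [Matrix.det_apply']
  exact SJ.sum hI hU _ fun σ _ => (SJ.finset_prod hI hU _ fun i _ => h _ _).cmul hI hU _

theorem SJ.matInv (hI : UniqueDiffOn ℝ I) (hU : IsOpen U)
    (h : ∀ i j, SJ N I U fun t y => A t y i j) (h0 : ∀ t ∈ I, ∀ y ∈ U, (A t y).det ≠ 0)
    (i j : m) : SJ N I U fun t y => (A t y)⁻¹ i j := by
  have h2 : SJ N I U fun t y => (A t y).adjugate i j := by
    simp only [Matrix.adjugate_apply]
    refine SJ.det hI hU fun a b => ?_
    by_cases hab : a = j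
    · subst hab
      simpa using SJ.const _
    · simpa [Matrix.updateRow_ne hab] using h a b
  refine (((SJ.det hI hU h).inv hI hU h0).mul hI hU h2).congr hU fun t _ y _ => ?_
  simp [Matrix.inv_def]

end SJ

variable {n N k : ℕ} {G : ℝ → MetricField n} {I : Set ℝ} {U : Set (En n)}

theorem SJ.chr (hI : UniqueDiffOn ℝ I) (hU : IsOpen U)
    (h : ∀ i j, SJ N I U fun t y => G t y i j) (h0 : ∀ t ∈ I, ∀ y ∈ U, (G t y).det ≠ 0)
    (a i j : Fin n) : SJ N I U fun t y => christoffel (G t) y a i j :=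
  (SJ.sum hI hU Finset.univ fun l _ => (SJ.matInv hI hU h h0 a l).mul hI hU
    ((((h j l).dv (eb i)).add hI hU ((h i l).dv (eb j))).sub hI hU ((h i j).dv (eb l)))).cmul
      hI hU _

theorem SJ.ricci (hI : UniqueDiffOn ℝ I) (hU : IsOpen U)
    (h : ∀ i j, SJ N I U fun t y => G t y i j) (h0 : ∀ t ∈ I, ∀ y ∈ U, (G t y).det ≠ 0)
    (i j : Fin n) : SJ N I U fun t y => ricci (G t) y i j := by
  have c := SJ.chr hI hU h h0
  exact (((SJ.sum hI hU Finset.univ fun a _ => (c a i j).dv (eb a)).sub hI hU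
    ((SJ.sum hI hU Finset.univ fun a _ => c a a i).dv (eb j))).add hI hU
    (SJ.sum hI hU Finset.univ fun a _ => SJ.sum hI hU Finset.univ fun l _ =>
      (c a a l).mul hI hU (c l i j))).sub hI hU
    (SJ.sum hI hU Finset.univ fun a _ => SJ.sum hI hU Finset.univ fun l _ =>
      (c a j l).mul hI hU (c l a i))

variable {φ : ℝ → En n → ℝ}

theorem K.chr (hU : IsOpen U) (hφ : Ge I U φ)
    (h : ∀ i j, K eb I U φ (k + 1) fun t y => G t y i j)
    (hH : ∀ i j, K eb I U φ (k + 1) fun t y => (G t y)⁻¹ i j) (a i j : Fin n) :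
    K eb I U φ k fun t y => christoffel (G t) y a i j := by
  refine K.cmul hU hφ _ (K.sum hU hφ Finset.univ fun l _ => ?_)
  exact ((((((h j l).2.2 i).add hU ((h i l).2.2 j)).sub hU hφ ((h i j).2.2 l))).mul hU hφ
    (hH a l).drop).congr hU fun t _ y _ => mul_comm _ _

/-- the components of `∇ʲ Rm` -/
def tw (G : ℝ → MetricField n) (j : ℕ) (J : Fin (4 + j) → Fin n) : ℝ → En n → ℝ :=
  fun t y => covN (G t) (rmT (G t)) j y J

theorem dv_tw (j : ℕ) (J : Fin (4 + j) → Fin n) (a : Fin n) (t : ℝ) (y : En n) :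
    dv (eb a) (tw G j J) t y = tw G (j + 1) (Fin.cons a J : Fin (4 + j + 1) → Fin n) t y +
      ∑ s, ∑ m, christoffel (G t) y m a (J s) * tw G j (Function.update J s m) t y := by
  simp only [tw, covN, cov, Fin.tail_cons, Fin.cons_zero]
  exact (sub_add_cancel _ _).symm

theorem K.tw (hU : IsOpen U) (hφ : Ge I U φ) (hG : ∀ t ∈ I, IsRiemannianOn (G t) U)
    (hc : ∀ a i j, K eb I U φ k fun t y => christoffel (G t) y a i j)
    (hT : ∀ j J, K eb I U one k (tw G j J)) (j : ℕ) (J : Fin (4 + j) → Fin n) :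
    K eb I U φ (k + 1) (tw G j J) :=
  ⟨(hT j J).bd, fun t ht _ hy => smT_diff hU (smT_covN (hG t ht) (smT_rmT (hG t ht)) j) hy J,
    fun a => (((hT (j + 1) _).weak hφ).add hU (K.sum hU hφ Finset.univ fun s _ =>
      K.sum hU hφ Finset.univ fun m _ => (hc m a (J s)).mul hU hφ (hT j _))).congr hU
        fun t _ y _ => dv_tw j J a t y⟩

theorem K.ricci (hU : IsOpen U) (hφ : Ge I U φ) (hG : ∀ t ∈ I, IsRiemannianOn (G t) U)
    (hH : ∀ i j, K eb I U φ (k + 1) fun t y => (G t y)⁻¹ i j)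
    (hT : ∀ J, K eb I U φ (k + 1) (X.tw G 0 J)) (a b : Fin n) :
    K eb I U φ (k + 1) fun t y => -2 * ricci (G t) y a b :=
  K.cmul hU hφ _ ((K.sum hU hφ Finset.univ fun l _ => K.sum hU hφ Finset.univ fun i _ =>
    (hH l i).mul' hU hφ (hT ![l, a, i, b])).congr hU fun t ht _ hy => ricci_eq_tr (hG t ht) hy a b)

end Crest.Agent.N207.X
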