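import Crest.Agent.N207.X.Jet

/-! Row 207, block B (end).  Tame classes: `K e I U φ k f` says that the spatial derivatives of
`f` along the directions `e a` of order `< k` are bounded on `I × U` and those of order `k` are
`O(φ)`. -/

set_option autoImplicit false
set_option linter.unusedSectionVars false
open Set Filter Topology
open scoped ContDiff

noncomputable section
namespace Crest.Agent.N207.X

variable {E : Type*} [NormedAddCommGroup E] [NormedSpace ℝ E] {ι : Type*}

/-- bounded on `I × U` -/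
def Bd (I : Set ℝ) (U : Set E) (f : ℝ → E → ℝ) : Prop := ∃ C, ∀ t ∈ I, ∀ y ∈ U, |f t y| ≤ C

/-- the constant gauge -/
def one : ℝ → E → ℝ := fun _ _ => 1

/-- the tame classes -/
def K (e : ι → E) (I : Set ℝ) (U : Set E) (φ : ℝ → E → ℝ) : ℕ → (ℝ → E → ℝ) → Prop
  | 0, f => ∃ C, ∀ t ∈ I, ∀ y ∈ U, |f t y| ≤ C * φ t y
  | k + 1, f => Bd I U f ∧ (∀ t ∈ I, ∀ y ∈ U, DifferentiableAt ℝ (f t) y) ∧
      ∀ a, K e I U φ k (dv (e a) f)

/-- the gauge is at least one -/
def Ge (I : Set ℝ) (U : Set E) (φ : ℝ → E → ℝ) : Prop := ∀ t ∈ I, ∀ y ∈ U, 1 ≤ φ t y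

variable {e : ι → E} {I : Set ℝ} {U : Set E} {φ : ℝ → E → ℝ} {k : ℕ} {f g : ℝ → E → ℝ}

theorem ge_one : Ge I U (one (E := E)) := fun _ _ _ _ => le_rfl

theorem K.zero_one : K e I U one 0 f ↔ Bd I U f := by simp [K, Bd, one]

theorem Bd.congr (h : Bd I U f) (q : EqI I U g f) : Bd I U g := by
  obtain ⟨C, hC⟩ := h
  exact ⟨C, fun t ht y hy => by rw [q t ht y hy]; exact hC t ht y hy⟩

theorem Bd.mul (h : Bd I U f) (h' : Bd I U g) : Bd I U (fun t y => f t y * g t y) := by
  obtain ⟨C, hC⟩ := h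
  obtain ⟨D, hD⟩ := h'
  refine ⟨C * D, fun t ht y hy => ?_⟩
  rw [abs_mul]
  exact mul_le_mul (hC t ht y hy) (hD t ht y hy) (abs_nonneg _)
    ((abs_nonneg _).trans (hC t ht y hy))

theorem Bd.add (h : Bd I U f) (h' : Bd I U g) : Bd I U (fun t y => f t y + g t y) := by
  obtain ⟨C, hC⟩ := h
  obtain ⟨D, hD⟩ := h'
  exact ⟨C + D, fun t ht y hy => (abs_add_le _ _).trans (add_le_add (hC t ht y hy) (hD t ht y hy))⟩

theorem K.congr (hU : IsOpen U) (h : K e I U φ k f) (q : EqI I U g f) : K e I U φ k g := by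
  induction k generalizing f g with
  | zero =>
    obtain ⟨C, hC⟩ := h
    exact ⟨C, fun t ht y hy => by rw [q t ht y hy]; exact hC t ht y hy⟩
  | succ k ih =>
    exact ⟨h.1.congr q, fun t ht y hy => (h.2.1 t ht y hy).congr_of_eventuallyEq (q.ev hU ht hy),
      fun a => ih (h.2.2 a) (q.dv hU _)⟩

theorem K.bd (h : K e I U one k f) : Bd I U f := by
  cases k with
  | zero => exact K.zero_one.1 h
  | succ k => exact h.1

theorem K.drop (h : K e I U φ (k + 1) f) : K e I U one k f := by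
  induction k generalizing f with
  | zero => exact K.zero_one.2 h.1
  | succ k ih => exact ⟨h.1, h.2.1, fun a => ih (h.2.2 a)⟩

theorem K.weak (hφ : Ge I U φ) (h : K e I U one k f) : K e I U φ k f := by
  induction k generalizing f with
  | zero =>
    obtain ⟨C, hC⟩ := h.bd
    refine ⟨C, fun t ht y hy => (hC t ht y hy).trans ?_⟩
    exact le_mul_of_one_le_right ((abs_nonneg _).trans (hC t ht y hy)) (hφ t ht y hy)
  | succ k ih => exact ⟨h.1, h.2.1, fun a => ih (h.2.2 a)⟩

theorem K.of_bdd (hφ : Bd I U φ) (h : K e I U φ k f) : K e I U one k f := by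
  induction k generalizing f with
  | zero =>
    obtain ⟨C, hC⟩ := h
    obtain ⟨D, hD⟩ := hφ
    refine K.zero_one.2 ⟨|C| * D, fun t ht y hy => (hC t ht y hy).trans ?_⟩
    refine (le_abs_self _).trans ?_
    rw [abs_mul]
    exact mul_le_mul_of_nonneg_left (hD t ht y hy) (abs_nonneg _)
  | succ k ih => exact ⟨h.1, h.2.1, fun a => ih (h.2.2 a)⟩

theorem K.const (hφ : Ge I U φ) (c : ℝ) : K e I U φ k (fun _ _ => c) := by
  refine K.weak hφ ?_
  induction k generalizing c with
  | zero => exact K.zero_one.2 ⟨|c|, fun _ _ _ _ => le_rfl⟩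
  | succ k ih =>
    refine ⟨⟨|c|, fun _ _ _ _ => le_rfl⟩, fun _ _ _ _ => differentiableAt_const _, fun a => ?_⟩
    have : dv (e a) (fun (_ : ℝ) (_ : E) => c) = fun _ _ => 0 := by
      funext t y
      simp [dv]
    rw [this]
    exact ih 0

theorem K.add (hU : IsOpen U) (h : K e I U φ k f) (h' : K e I U φ k g) :
    K e I U φ k (fun t y => f t y + g t y) := by
  induction k generalizing f g with
  | zero =>
    obtain ⟨C, hC⟩ := h
    obtain ⟨D, hD⟩ := h'
    refine ⟨C + D, fun t ht y hy => (abs_add_le _ _).trans ?_⟩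
    rw [add_mul]
    exact add_le_add (hC t ht y hy) (hD t ht y hy)
  | succ k ih =>
    refine ⟨h.1.add h'.1, fun t ht y hy => (h.2.1 t ht y hy).add (h'.2.1 t ht y hy),
      fun a => (ih (h.2.2 a) (h'.2.2 a)).congr hU fun t ht y hy => ?_⟩
    simp only [dv]
    rw [fderiv_fun_add (h.2.1 t ht y hy) (h'.2.1 t ht y hy)]
    rfl

theorem dv_mul {t : ℝ} {y : E} (v : E) (hf : DifferentiableAt ℝ (f t) y)
    (hg : DifferentiableAt ℝ (g t) y) :
    dv v (fun t y => f t y * g t y) t y = dv v f t y * g t y + dv v g t y * f t y := by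
  simp only [dv]
  rw [fderiv_fun_mul hf hg]
  simp only [ContinuousLinearMap.add_apply, ContinuousLinearMap.smul_apply, smul_eq_mul]
  ring

theorem K.mul (hU : IsOpen U) (hφ : Ge I U φ) (h : K e I U φ k f) (h' : K e I U one k g) :
    K e I U φ k (fun t y => f t y * g t y) := by
  induction k generalizing f g with
  | zero =>
    obtain ⟨C, hC⟩ := h
    obtain ⟨D, hD⟩ := h'.bd
    refine ⟨C * D, fun t ht y hy => ?_⟩
    rw [abs_mul, mul_right_comm]
    exact mul_le_mul (hC t ht y hy) (hD t ht y hy) (abs_nonneg _)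
      ((abs_nonneg _).trans (hC t ht y hy))
  | succ k ih =>
    exact ⟨h.1.mul h'.1, fun t ht y hy => (h.2.1 t ht y hy).mul (h'.2.1 t ht y hy),
      fun a => ((ih (h.2.2 a) h'.drop).add hU (ih ((h'.2.2 a).weak hφ) h.drop)).congr hU
        fun t ht y hy => dv_mul _ (h.2.1 t ht y hy) (h'.2.1 t ht y hy)⟩

theorem K.mul' (hU : IsOpen U) (hφ : Ge I U φ) (h : K e I U φ (k + 1) f)
    (h' : K e I U φ (k + 1) g) : K e I U φ (k + 1) (fun t y => f t y * g t y) :=
  ⟨h.1.mul h'.1, fun t ht y hy => (h.2.1 t ht y hy).mul (h'.2.1 t ht y hy),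
    fun a => (((h.2.2 a).mul hU hφ h'.drop).add hU ((h'.2.2 a).mul hU hφ h.drop)).congr hU
      fun t ht y hy => dv_mul _ (h.2.1 t ht y hy) (h'.2.1 t ht y hy)⟩

theorem K.cmul (hU : IsOpen U) (hφ : Ge I U φ) (c : ℝ) (h : K e I U φ k f) :
    K e I U φ k (fun t y => c * f t y) :=
  (h.mul hU hφ (K.const ge_one c)).congr hU fun _ _ _ _ => mul_comm _ _

theorem K.sub (hU : IsOpen U) (hφ : Ge I U φ) (h : K e I U φ k f) (h' : K e I U φ k g) :
    K e I U φ k (fun t y => f t y - g t y) :=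
  (h.add hU (h'.cmul hU hφ (-1))).congr hU fun _ _ _ _ => by ring

theorem K.sum (hU : IsOpen U) (hφ : Ge I U φ) {κ : Type*} (s : Finset κ) {w : κ → ℝ → E → ℝ}
    (h : ∀ i ∈ s, K e I U φ k (w i)) : K e I U φ k (fun t y => ∑ i ∈ s, w i t y) := by
  classical
  induction s using Finset.induction_on with
  | empty => simpa using K.const hφ 0
  | insert a s ha ih =>
    simp only [Finset.sum_insert ha]
    exact (h a (by simp)).add hU (ih fun i hi => h i (by simp [hi]))

theorem K.prod (hU : IsOpen U) (hφ : Ge I U φ) {κ : Type*} (s : Finset κ) {w : κ → ℝ → E → ℝ}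
    (h : ∀ i ∈ s, K e I U φ (k + 1) (w i)) : K e I U φ (k + 1) (fun t y => ∏ i ∈ s, w i t y) := by
  classical
  induction s using Finset.induction_on with
  | empty => simpa using K.const hφ 1
  | insert a s ha ih =>
    simp only [Finset.prod_insert ha]
    exact (h a (by simp)).mul' hU hφ (ih fun i hi => h i (by simp [hi]))

theorem K.prod_one (hU : IsOpen U) {κ : Type*} (s : Finset κ) {w : κ → ℝ → E → ℝ}
    (h : ∀ i ∈ s, K e I U one k (w i)) : K e I U one k (fun t y => ∏ i ∈ s, w i t y) := by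
  classical
  induction s using Finset.induction_on with
  | empty => simpa using K.const ge_one 1
  | insert a s ha ih =>
    simp only [Finset.prod_insert ha]
    exact (h a (by simp)).mul hU ge_one (ih fun i hi => h i (by simp [hi]))

theorem K.inv (hU : IsOpen U) (hφ : Ge I U φ) (h : K e I U φ (k + 1) f)
    (h0 : ∀ t ∈ I, ∀ y ∈ U, f t y ≠ 0) (hb : Bd I U fun t y => (f t y)⁻¹) :
    K e I U φ (k + 1) (fun t y => (f t y)⁻¹) := by
  induction k generalizing φ with
  | zero =>
    refine ⟨hb, fun t ht y hy => (h.2.1 t ht y hy).inv (h0 t ht y hy), fun a =>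
      (((h.2.2 a).mul hU hφ (K.zero_one.2 (hb.mul hb))).cmul hU hφ (-1)).congr hU
        fun t ht y hy => ?_⟩
    have h1 : HasFDerivAt (fun y => (f t y)⁻¹) _ y :=
      (hasDerivAt_inv (h0 t ht y hy)).comp_hasFDerivAt y (h.2.1 t ht y hy).hasFDerivAt
    simp only [dv]
    rw [h1.fderiv]
    simp only [ContinuousLinearMap.smul_apply, smul_eq_mul]
    field_simp
  | succ k ih =>
    have h2 := ih ge_one h.drop
    refine ⟨hb, fun t ht y hy => (h.2.1 t ht y hy).inv (h0 t ht y hy), fun a =>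
      (((h.2.2 a).mul hU hφ (h2.mul hU ge_one h2)).cmul hU hφ (-1)).congr hU
        fun t ht y hy => ?_⟩
    have h1 : HasFDerivAt (fun y => (f t y)⁻¹) _ y :=
      (hasDerivAt_inv (h0 t ht y hy)).comp_hasFDerivAt y (h.2.1 t ht y hy).hasFDerivAt
    simp only [dv]
    rw [h1.fderiv]
    simp only [ContinuousLinearMap.smul_apply, smul_eq_mul]
    field_simp

section Mat
variable {m : Type*} [Fintype m] [DecidableEq m] {A : ℝ → E → Matrix m m ℝ}

theorem K.det (hU : IsOpen U) (hφ : Ge I U φ)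
    (h : ∀ i j, K e I U φ (k + 1) fun t y => A t y i j) :
    K e I U φ (k + 1) fun t y => (A t y).det := by
  simp only [Matrix.det_apply']
  exact K.sum hU hφ _ fun σ _ => (K.prod hU hφ _ fun i _ => h _ _).cmul hU hφ _

theorem Bd.det (hU : IsOpen U) (h : ∀ i j, Bd I U fun t y => A t y i j) :
    Bd I U fun t y => (A t y).det := by
  simp only [Matrix.det_apply']
  exact (K.zero_one (e := fun _ : Unit => (0 : E))).1 (K.sum hU ge_one _ fun σ _ =>
    (K.prod_one hU _ fun i _ => K.zero_one.2 (h _ _)).cmul hU ge_one _)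

theorem K.matInv (hU : IsOpen U) (hφ : Ge I U φ)
    (h : ∀ i j, K e I U φ (k + 1) fun t y => A t y i j)
    (h0 : ∀ t ∈ I, ∀ y ∈ U, (A t y).det ≠ 0) (hb : ∀ i j, Bd I U fun t y => (A t y)⁻¹ i j)
    (i j : m) : K e I U φ (k + 1) fun t y => (A t y)⁻¹ i j := by
  have h1 : Bd I U fun t y => ((A t y).det)⁻¹ :=
    (Bd.det hU hb).congr fun t _ y _ => by simp [Matrix.det_nonsing_inv]
  have h2 : K e I U φ (k + 1) fun t y => (A t y).adjugate i j := by
    simp only [Matrix.adjugate_apply]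
    refine K.det hU hφ fun a b => ?_
    by_cases hab : a = j
    · subst hab
      simpa using K.const hφ _
    · simpa [Matrix.updateRow_ne hab] using h a b
  refine (((K.det hU hφ h).inv hU hφ h0 h1).mul' hU hφ h2).congr hU fun t _ y _ => ?_
  simp [Matrix.inv_def]

end Mat

theorem K.top (h : K e I U one k f)
    (hd : ∀ l, ∀ t ∈ I, ∀ y ∈ U, DifferentiableAt ℝ (dl l f t) y)
    (hφ : ∀ l : List ι, l.length = k + 1 → ∀ t ∈ I, ∀ y ∈ U, |dl (l.map e) f t y| ≤ φ t y) :
    K e I U φ (k + 1) f := by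
  induction k generalizing f with
  | zero =>
    exact ⟨h.bd, hd [], fun a => ⟨1, fun t ht y hy => by
      simpa [dl] using hφ [a] rfl t ht y hy⟩⟩
  | succ k ih =>
    exact ⟨h.1, h.2.1, fun a => ih (h.2.2 a) (fun l => hd (e a :: l))
      fun l hl => hφ (a :: l) (by simp [hl])⟩

theorem K.dl_le (h : K e I U φ k f) (l : List ι) (hl : l.length = k) :
    ∃ C, ∀ t ∈ I, ∀ y ∈ U, |dl (l.map e) f t y| ≤ C * φ t y := by
  induction l generalizing f k with
  | nil => subst hl; exact h
  | cons a l ih => subst hl; exact ih (h.2.2 a) rfl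

end Crest.Agent.N207.X
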